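import Vale.Agent.P084.Smooth.Step

/-!
P084 in infinite dimensions: weakly convergent sequences on the sphere and their images.
-/

open Filter Topology Metric

namespace Vale.Agent.P084.Smooth

universe u v

variable {X : Type u} [NormedAddCommGroup X] [NormedSpace ℝ X]
  {Y : Type v} [NormedAddCommGroup Y] [NormedSpace ℝ Y]

theorem sph_norm (a : sphere (0 : X) 1) : ‖(a : X)‖ = 1 := mem_sphere_zero_iff_norm.1 a.2

/-- a sequence on the sphere with the image sequence and both weak limits -/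
structure St (f : sphere (0 : X) 1 ≃ᵢ sphere (0 : Y) 1) (r : ℝ) where
  x : ℕ → X
  y : ℕ → Y
  v : X
  u : Y
  img : ∀ᶠ n in (U0 : Filter ℕ), ∃ a : sphere (0 : X) 1, x n = a ∧ y n = (f a : Y)
  wx : WL x v
  wy : WL y u
  hr : rad x ≤ r

variable {f : sphere (0 : X) 1 ≃ᵢ sphere (0 : Y) 1} {r : ℝ}

theorem iso_norm_sub (f : sphere (0 : X) 1 ≃ᵢ sphere (0 : Y) 1) (a b : sphere (0 : X) 1) :
    ‖(f a : Y) - (f b : Y)‖ = ‖(a : X) - (b : X)‖ := by
  have := f.isometry.dist_eq a b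
  rwa [Subtype.dist_eq, Subtype.dist_eq, dist_eq_norm, dist_eq_norm] at this

theorem St.x_one (st : St f r) : ∀ᶠ n in (U0 : Filter ℕ), ‖st.x n‖ = 1 :=
  st.img.mono fun n ⟨a, h, _⟩ => by rw [h]; exact sph_norm a

theorem St.y_one (st : St f r) : ∀ᶠ n in (U0 : Filter ℕ), ‖st.y n‖ = 1 :=
  st.img.mono fun n ⟨a, _, h⟩ => by rw [h]; exact sph_norm _

theorem St.rad_y (st : St f r) : rad st.y = rad st.x := by
  refine ulim_congr ?_
  filter_upwards [st.img] with n ⟨a, ha, ha'⟩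
  refine ulim_congr (st.img.mono fun m ⟨b, hb, hb'⟩ => ?_)
  simp only [ha, ha', hb, hb', iso_norm_sub]

/-- the same state for the inverse map -/
noncomputable def St.swap (st : St f r) : St f.symm r where
  x := st.y
  y := st.x
  v := st.u
  u := st.v
  img := st.img.mono fun n ⟨a, ha, ha'⟩ => ⟨f a, ha', by rw [ha, IsometryEquiv.symm_apply_apply]⟩
  wx := st.wy
  wy := st.wx
  hr := st.rad_y.trans_le st.hr

theorem St.ulim_eq (st : St f r) (q : sphere (0 : X) 1) :
    (ulim fun n => ‖st.y n - (f q : Y)‖) = ulim fun n => ‖st.x n - (q : X)‖ :=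
  ulim_congr (st.img.mono fun n ⟨a, ha, ha'⟩ => by simp only [ha, ha', iso_norm_sub])

theorem exists_st (NY : Nice Y) {x : ℕ → X} {v : X}
    (hx : ∀ᶠ n in (U0 : Filter ℕ), ‖x n‖ = 1) (hv : WL x v) (hr : rad x ≤ r) :
    ∃ st : St f r, st.x = x ∧ st.v = v := by
  classical
  set y : ℕ → Y := fun n =>
    if h : ‖x n‖ = 1 then (f ⟨x n, mem_sphere_zero_iff_norm.2 h⟩ : Y) else 0 with hy
  obtain ⟨u, hu⟩ := NY.wl y 1 fun n => by
    simp only [hy]
    split
    · exact (sph_norm _).le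
    · simp
  refine ⟨⟨x, y, v, u, hx.mono fun n hn => ⟨⟨x n, mem_sphere_zero_iff_norm.2 hn⟩, rfl, ?_⟩, hv, hu,
    hr⟩, rfl, rfl⟩
  simp only [hy, dif_pos hn]

/-- a vector is small when the functionals norming chords from `a` are small on it -/
theorem norm_le_of_tests {c B : ℝ} (hc : 0 < c)
    (hbend : ∀ x k : Y, ‖x‖ = 1 → ‖k‖ = 1 → J x k = 0 →
      ∀ τ : ℝ, 1 / 6 ≤ τ → τ ≤ 1 / 2 → 1 + c ≤ ‖x + τ • k‖)
    {a' k : Y} (ha1 : ‖a'‖ = 1)
    (est : ∀ m : Y, 3 / 2 ≤ ‖m‖ → ‖a' - m‖ = 1 → |J m k| ≤ B)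
    (h0 : |J a' k| ≤ B) : ‖k‖ ≤ (1 + 2 / c) * B := by
  set a₀ := J a' k with ha₀
  set kT := k - a₀ • a' with hkT
  have hsplit : ‖k‖ ≤ ‖kT‖ + |a₀| := by
    have := norm_add_le kT (a₀ • a')
    rw [norm_smul, ha1, mul_one, Real.norm_eq_abs, hkT, sub_add_cancel] at this
    exact this
  have hT : ‖kT‖ * c ≤ 2 * B := by
    by_cases h : kT = 0
    · rw [h, norm_zero, zero_mul]; linarith [abs_nonneg a₀]
    have hp : 0 < ‖kT‖ := norm_pos_iff.2 h
    set kh := ‖kT‖⁻¹ • kT with hkh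
    have hkh1 : ‖kh‖ = 1 := by
      rw [hkh, norm_smul_of_nonneg (inv_nonneg.2 hp.le), inv_mul_cancel₀ hp.ne']
    have hJk : J a' kh = 0 := by
      rw [hkh, map_smul, hkT, map_sub, map_smul, J_self, ha1]; simp [ha₀]
    set n := ‖a' + (1 / 2 : ℝ) • kh‖ with hn
    have hn1 : 1 ≤ n := by
      have := add_J_le a' ((1 / 2 : ℝ) • kh)
      rwa [map_smul, hJk, smul_zero, add_zero, ha1] at this
    have hn2 : n ≤ 3 / 2 := by
      refine (norm_add_le _ _).trans ?_
      rw [ha1, norm_smul_of_nonneg (by norm_num), hkh1]; norm_num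
    set τ := 1 / (2 * (n + 1)) with hτ
    have hτ1 : 1 / 6 ≤ τ := by rw [hτ, div_le_div_iff₀ (by norm_num) (by linarith)]; linarith
    have hτ2 : τ ≤ 1 / 2 := by rw [hτ, div_le_div_iff₀ (by linarith) (by norm_num)]; linarith
    set w := a' + τ • kh with hw
    have hwn : 1 + c ≤ ‖w‖ := hbend a' kh ha1 hkh1 hJk τ hτ1 hτ2
    set m := (1 + n⁻¹) • w with hm
    have hi : 2 / 3 ≤ n⁻¹ := by
      rw [← one_div, div_le_div_iff₀ (by norm_num) (by linarith)]; linarith
    have hmn : ‖m‖ = (1 + n⁻¹) * ‖w‖ := norm_smul_of_nonneg (by positivity) _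
    have hm32 : 3 / 2 ≤ ‖m‖ := by rw [hmn]; nlinarith
    have hm1 : ‖a' - m‖ = 1 := by
      have e : a' - m = -(n⁻¹ • (a' + (1 / 2 : ℝ) • kh)) := by
        have : (1 + n⁻¹) * τ = n⁻¹ * (1 / 2) := by rw [hτ]; field_simp
        rw [hm, hw, smul_add, smul_smul, this]; module
      rw [e, norm_neg, norm_smul_of_nonneg (by positivity), ← hn, inv_mul_cancel₀ (by linarith)]
    have hJw : J m w = ‖w‖ := by
      have h := J_self m
      rw [hmn] at h
      nth_rw 2 [hm] at h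
      rw [map_smul, smul_eq_mul] at h
      exact mul_left_cancel₀ (by positivity) h
    have hχ : c ≤ J m kh := by
      have h1 := (J_le m a').trans ha1.le
      rw [hw, map_add, map_smul, smul_eq_mul, ← hw] at hJw
      have : τ * J m kh ≤ J m kh ∨ J m kh < 0 := by
        rcases le_or_gt 0 (J m kh) with h | h
        · exact Or.inl (mul_le_of_le_one_left h (by linarith))
        · exact Or.inr h
      rcases this with h | h
      · linarith
      · nlinarith
    have h1 := est m hm32 hm1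
    have e : J m k = ‖kT‖ * J m kh + a₀ * J m a' := by
      have e1 : k = ‖kT‖ • kh + a₀ • a' := by
        rw [hkh, smul_smul, mul_inv_cancel₀ hp.ne', one_smul, hkT, sub_add_cancel]
      nth_rw 1 [e1]
      simp
    have h2 : |a₀ * J m a'| ≤ |a₀| := by
      rw [abs_mul]
      refine mul_le_of_le_one_right (abs_nonneg _) (abs_le.2 ⟨?_, ?_⟩)
      · linarith [neg_le_J m a']
      · exact (J_le m a').trans ha1.le
    have h3 : ‖kT‖ * c ≤ ‖kT‖ * J m kh := mul_le_mul_of_nonneg_left hχ hp.le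
    linarith [le_abs_self (J m k), neg_abs_le (a₀ * J m a')]
  have : ‖kT‖ ≤ 2 / c * B := by
    rw [div_mul_eq_mul_div, le_div_iff₀ hc]; exact hT
  rw [add_mul, one_mul]; linarith

/-- weak limit of the image is near the image of a nearby point of the sphere -/
theorem image_near (NY : Nice Y) (GX : GainFacts X) (GY : GainFacts Y) :
    ∃ σ : ℝ, 0 < σ ∧ ∃ K : ℝ, 1 ≤ K ∧ ∀ (f : sphere (0 : X) 1 ≃ᵢ sphere (0 : Y) 1) (r G : ℝ)
      (st : St f r) (a : sphere (0 : X) 1), 0 ≤ r → r ≤ σ → gain X r ≤ G → gain Y r ≤ G → G ≤ σ →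
        ‖st.v - a‖ ≤ σ → ‖st.u - (f a : Y)‖ ≤ K * (‖st.v - a‖ + G) := by
  obtain ⟨c, hc, hbend⟩ := NY.bend
  set K0 := 1 + 2 / c with hK0
  have hK01 : 1 ≤ K0 := le_add_of_nonneg_right (by positivity)
  obtain ⟨t, ht, hexp⟩ := NY.expand (1 / (2 * K0)) (by positivity)
  refine ⟨min (1 / 32) (t / 4), by positivity, 2 * K0, by linarith, ?_⟩
  intro f r G st a hr hrσ hgX hgY hGσ hEσ
  simp only [le_min_iff] at hrσ hGσ hEσ
  set E := ‖st.v - a‖ with hE
  have hE0 : 0 ≤ E := norm_nonneg _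
  have hG0 : 0 ≤ G := (GX.nonneg r hr).trans hgX
  set a' : Y := (f a : Y) with ha'
  have ha1 : ‖a'‖ = 1 := sph_norm _
  set k := st.u - a' with hk
  have hxb : Bdd st.x := bdd_sphere st.x_one
  have hyb : Bdd st.y := bdd_sphere st.y_one
  set ν := fun n => st.x n - st.v with hν
  set μ := fun n => st.y n - st.u with hμ
  have hνr : rad ν ≤ r := by simpa [rad, hν, sub_sub_sub_cancel_right] using st.hr
  have hμr : rad μ ≤ r := by
    have h := st.rad_y.trans_le st.hr
    simpa [rad, hμ, sub_sub_sub_cancel_right] using h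
  have hνl : (ulim fun n => ‖ν n‖) ≤ r := (GX.norm_le_rad _ _ hxb st.wx).trans st.hr
  have hk' : ‖k‖ ≤ E + r := by
    refine (WL.norm_le (hyb.sub_const a') (st.wy.sub_const a')).trans ?_
    rw [ha', st.ulim_eq a]
    refine le_of_tendsto_of_tendsto (hxb.sub_const _).tendsto_norm
      ((((hxb.sub_const st.v).tendsto_norm).const_add E).trans
        (nhds_eq_nhds_iff.2 rfl).le) (Eventually.of_forall fun n => ?_) |>.trans (by simpa [hν] using hνl)
    exact (norm_sub_le_norm_sub_add_norm_sub _ st.v _).trans (by linarith)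
  have hk16 : ‖k‖ ≤ 1 / 16 := by linarith
  have two : ∀ q : sphere (0 : X) 1, 3 / 2 ≤ ‖a' - (f q : Y)‖ →
      |‖st.u - (f q : Y)‖ - ‖a' - (f q : Y)‖| ≤ E + G := by
    intro q hq
    have hL : ‖a' - (f q : Y)‖ = ‖(a : X) - q‖ := iso_norm_sub f a q
    have hv1 : ‖st.v - q‖ ≤ ‖(a : X) - q‖ + E ∧ ‖(a : X) - q‖ - E ≤ ‖st.v - q‖ := by
      constructor
      · have := norm_sub_le_norm_sub_add_norm_sub st.v (a : X) q; linarith
      · have := norm_sub_le_norm_sub_add_norm_sub (a : X) st.v q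
        rw [norm_sub_rev (a : X) st.v] at this; linarith
    have hu1 : ‖a' - (f q : Y)‖ - ‖k‖ ≤ ‖st.u - (f q : Y)‖ := by
      have := norm_sub_le_norm_sub_add_norm_sub a' st.u (f q : Y)
      rw [norm_sub_rev a' st.u] at this; linarith
    have hyq := WL.norm_le (hyb.sub_const (f q : Y)) (st.wy.sub_const (f q : Y))
    have hxq := WL.norm_le (hxb.sub_const (q : X)) (st.wx.sub_const (q : X))
    rw [st.ulim_eq q] at hyq
    have hX := GX.upper (st.v - q) ν r 1 (hxb.sub_const _) st.wx.sub_self hνr one_pos (by linarith)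
    have hY := GY.upper (st.u - (f q : Y)) μ r 1 (hyb.sub_const _) st.wy.sub_self hμr one_pos
      (by linarith)
    simp only [hν, hμ, div_one, one_mul, show ∀ (p q w : X), p - q + (w - p) = w - q by
      intros; abel] at hX
    simp only [hμ, div_one, one_mul, show ∀ (p q w : Y), p - q + (w - p) = w - q by
      intros; abel] at hY
    rw [st.ulim_eq q] at hY
    rw [abs_le]
    constructor <;> linarith
  have est : ∀ m : Y, 3 / 2 ≤ ‖m‖ → ‖a' - m‖ = 1 → |J m k| ≤ E + G + 1 / (2 * K0) * ‖k‖ := by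
    intro m hm hm1
    obtain ⟨q, hq⟩ : ∃ q : sphere (0 : X) 1, (f q : Y) = a' - m :=
      ⟨f.symm ⟨a' - m, mem_sphere_zero_iff_norm.2 hm1⟩, by rw [IsometryEquiv.apply_symm_apply]⟩
    have hm2 : a' - (f q : Y) = m := by rw [hq]; abel
    have h := two q (by rw [hm2]; exact hm)
    rw [hm2, show st.u - (f q : Y) = m + k by rw [hq, hk]; abel, abs_le] at h
    have h1 := add_J_le m k
    have h2 := hexp m k (by intro h0; rw [h0, norm_zero] at hm; linarith) (by nlinarith)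
    have h3 : 0 ≤ 1 / (2 * K0) * ‖k‖ := by positivity
    rw [abs_le]
    constructor <;> linarith
  set a₀ := J a' k with ha₀
  have h0 : |a₀| ≤ E + G + 1 / (2 * K0) * ‖k‖ := by
    obtain ⟨q, hq⟩ : ∃ q : sphere (0 : X) 1, (f q : Y) = -a' :=
      ⟨f.symm ⟨-a', by simp [ha1]⟩, by rw [IsometryEquiv.apply_symm_apply]⟩
    have hm2 : a' - (f q : Y) = (2 : ℝ) • a' := by rw [hq, two_smul]; abel
    have hn2 : ‖(2 : ℝ) • a'‖ = 2 := by rw [norm_smul_of_nonneg (by norm_num), ha1, mul_one]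
    have h := two q (by rw [hm2, hn2]; norm_num)
    have e2 : st.u - (f q : Y) = (2 : ℝ) • (a' + (1 / 2 : ℝ) • k) := by
      rw [hq, hk]; module
    rw [hm2, hn2, e2, norm_smul_of_nonneg (by norm_num), abs_le] at h
    have h1 := add_J_le a' ((1 / 2 : ℝ) • k)
    have hkn : ‖(1 / 2 : ℝ) • k‖ = 1 / 2 * ‖k‖ := norm_smul_of_nonneg (by norm_num) _
    have h2 := hexp a' ((1 / 2 : ℝ) • k) (by intro h0; rw [h0, norm_zero] at ha1; linarith)
      (by rw [hkn, ha1]; linarith)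
    rw [map_smul, smul_eq_mul, ha1] at h1 h2
    rw [hkn] at h2
    have h3 : 0 ≤ 1 / (2 * K0) * ‖k‖ := by positivity
    rw [abs_le]
    constructor <;> linarith
  have h4 : ‖k‖ ≤ K0 * (E + G + 1 / (2 * K0) * ‖k‖) := norm_le_of_tests hc hbend ha1 est h0
  have h5 : K0 * (1 / (2 * K0) * ‖k‖) = ‖k‖ / 2 := by field_simp
  rw [mul_add] at h4
  linarith

end Vale.Agent.P084.Smooth
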