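import Vale.Agent.P084.Smooth.Key

/-!
P084 in infinite dimensions: at scales where the modulus drops, a state near one endpoint of a chord
cannot separate the two norming functionals of the chord.
-/

open Filter Topology Metric

namespace Vale.Agent.P084.Smooth

universe u v

variable {X : Type u} [NormedAddCommGroup X] [NormedSpace ℝ X]
  {Y : Type v} [NormedAddCommGroup Y] [NormedSpace ℝ Y]

/-- repeated double steps -/
theorem iterate (GX : GainFacts X) (GY : GainFacts Y) {f : sphere (0 : X) 1 ≃ᵢ sphere (0 : Y) 1}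
    {z w : sphere (0 : X) 1} {l A σ G c R cost : ℝ} (hA : 1 ≤ A) (hG : 0 < G) (hc : 0 ≤ c)
    (hc1 : c ≤ 1)
    (hds : ∀ (ρ : ℝ) (s : St f ρ), 0 ≤ ρ → ρ ≤ R → A * (‖s.v - z‖ + G) ≤ σ →
      ∃ s' : St f (c * (c * ρ)), ‖s'.v - z‖ + G ≤ A * (‖s.v - z‖ + G) ∧
        phi z w s ≤ phi z w s' + l / 2 * gain X ((1 - c) * ρ / (l / 2))
          + l / 2 * gain Y ((1 - c) * ρ / (l / 2)))
    (hl : 0 < l) (hX : l / 2 * gain X ((1 - c) * R / (l / 2)) ≤ cost / 2)
    (hY : l / 2 * gain Y ((1 - c) * R / (l / 2)) ≤ cost / 2) :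
    ∀ (m : ℕ) (ρ : ℝ) (s : St f ρ), 0 ≤ ρ → ρ ≤ R → A ^ m * (‖s.v - z‖ + G) ≤ σ →
      ∃ (ρ' : ℝ) (s' : St f ρ'), 0 ≤ ρ' ∧ ρ' ≤ c ^ (2 * m) * ρ ∧
        ‖s'.v - z‖ + G ≤ A ^ m * (‖s.v - z‖ + G) ∧ phi z w s ≤ phi z w s' + m * cost := by
  intro m
  induction m with
  | zero => exact fun ρ s h0 _ _ => ⟨ρ, s, h0, by simp, by simp, by simp⟩
  | succ m ih =>
    intro ρ s h0 hρ hsm
    have hEG : 0 ≤ ‖s.v - z‖ + G := by positivity
    have hA1 : A * (‖s.v - z‖ + G) ≤ A ^ (m + 1) * (‖s.v - z‖ + G) :=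
      mul_le_mul_of_nonneg_right (le_self_pow₀ hA (by omega)) hEG
    obtain ⟨s₁, hs₁, hp₁⟩ := hds ρ s h0 hρ (hA1.trans hsm)
    have hcc : c * (c * ρ) ≤ ρ :=
      (mul_le_of_le_one_left (mul_nonneg hc h0) hc1).trans (mul_le_of_le_one_left h0 hc1)
    have hA2 : A ^ m * (‖s₁.v - z‖ + G) ≤ A ^ (m + 1) * (‖s.v - z‖ + G) := by
      rw [pow_succ, mul_assoc]; exact mul_le_mul_of_nonneg_left hs₁ (by positivity)
    obtain ⟨ρ', s', h0', hρ', hv', hp'⟩ :=
      ih (c * (c * ρ)) s₁ (by positivity) (hcc.trans hρ) (hA2.trans hsm)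
    refine ⟨ρ', s', h0', ?_, hv'.trans hA2, ?_⟩
    · rw [show 2 * (m + 1) = 2 * m + 1 + 1 by ring, pow_succ, pow_succ, mul_assoc, mul_assoc]
      exact hρ'
    · have h2 : 0 ≤ 1 - c := by linarith
      have h1 : (1 - c) * ρ / (l / 2) ≤ (1 - c) * R / (l / 2) :=
        div_le_div_of_nonneg_right (mul_le_mul_of_nonneg_left hρ h2) (by positivity)
      have hl2 : 0 ≤ l / 2 := by positivity
      have := (mul_le_mul_of_nonneg_left (GX.mono _ _ (by positivity) h1) hl2).trans hX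
      have := (mul_le_mul_of_nonneg_left (GY.mono _ _ (by positivity) h1) hl2).trans hY
      push_cast
      linarith

theorem count_bound {θ ε : ℝ} (hθ : 0 < θ) (hθ1 : θ ≤ 1) (hε : 0 < ε) (hε1 : ε ≤ 1 / 4) :
    ∃ n : ℕ, (1 - ε) ^ (2 * n) ≤ θ ∧ (n : ℝ) * ε * θ ≤ 2 := by
  set n := ⌈1 / (θ * ε)⌉₊ with hn
  have hn1 : 1 / (θ * ε) ≤ n := Nat.le_ceil _
  have hn2 : (n : ℝ) ≤ 1 / (θ * ε) + 1 := (Nat.ceil_lt_add_one (by positivity)).le
  refine ⟨n, ?_, ?_⟩
  · have hc0 : 0 ≤ 1 - ε := by linarith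
    have h1 : (1 : ℝ) + (2 * n : ℕ) * ε ≤ (1 + ε) ^ (2 * n) :=
      one_add_mul_le_pow (by linarith) _
    have h2 : ((1 - ε) * (1 + ε)) ^ (2 * n) ≤ 1 := pow_le_one₀ (by positivity) (by nlinarith)
    rw [mul_pow] at h2
    rw [div_le_iff₀ (by positivity)] at hn1
    push_cast at h1
    have h3 : (1 - ε) ^ (2 * n) * (1 + 2 * n * ε) ≤ 1 :=
      (mul_le_mul_of_nonneg_left h1 (by positivity)).trans h2
    nlinarith [pow_nonneg hc0 (2 * n)]
  · have := mul_le_mul_of_nonneg_right hn2 (show 0 ≤ ε * θ by positivity)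
    rw [add_mul, one_mul, show 1 / (θ * ε) * (ε * θ) = 1 by field_simp] at this
    have : ε * θ ≤ 1 := mul_le_one₀ (by linarith) hθ.le hθ1
    linarith

/-- the estimate at a state with a small radius next to an endpoint -/
theorem base (GX : GainFacts X) {f : sphere (0 : X) 1 ≃ᵢ sphere (0 : Y) 1}
    {z w : sphere (0 : X) 1} {l a b ρ : ℝ} (hl : 0 < l) (hzw : l ≤ ‖(z : X) - w‖) (s : St f ρ)
    (hs : ‖s.v - z‖ ≤ l / 2)
    (hexp : ‖((z : X) - w) + (s.v - z)‖
      ≤ ‖(z : X) - w‖ + J ((z : X) - w) (s.v - z) + a)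
    (hgain : l / 2 * gain X (ρ / (l / 2)) ≤ b) :
    phi z w s - (J ((f z : Y) - f w) (f z : Y) - J ((z : X) - w) (z : X)) ≤ a + b := by
  have hvw : l / 2 ≤ ‖s.v - (w : X)‖ := by
    have := norm_sub_le_norm_sub_add_norm_sub (z : X) s.v w
    rw [norm_sub_rev (z : X) s.v] at this
    linarith
  rw [show ((z : X) - w) + (s.v - z) = s.v - w by abel] at hexp
  have hxb : Bdd s.x := bdd_sphere s.x_one
  have hup := GX.upper (s.v - (w : X)) (fun n => s.x n - s.v) ρ (l / 2) (hxb.sub_const _)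
    s.wx.sub_self (by simpa [rad, sub_sub_sub_cancel_right] using s.hr) (by positivity) hvw
  simp only [show ∀ p q a : X, p - q + (a - p) = a - q by intros; abel] at hup
  have hyw := WL.norm_le ((bdd_sphere s.y_one).sub_const (f w : Y)) (s.wy.sub_const (f w : Y))
  rw [s.ulim_eq w] at hyw
  have hψu := J_le ((f z : Y) - f w) (s.u - (f w : Y))
  have eY : J ((f z : Y) - f w) (f z : Y) - J ((f z : Y) - f w) (f w : Y) = ‖(z : X) - w‖ := by
    rw [← map_sub, J_self, iso_norm_sub]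
  have eX : J ((z : X) - w) (z : X) - J ((z : X) - w) (w : X) = ‖(z : X) - w‖ := by
    rw [← map_sub, J_self]
  rw [map_sub (J ((z : X) - w)) s.v (z : X)] at hexp
  rw [map_sub] at hψu
  simp only [phi]
  linarith

theorem chord_upper (NX : Nice X) (NY : Nice Y) (GX : GainFacts X) (GY : GainFacts Y)
    {l η : ℝ} (hl : 0 < l) (hl1 : l ≤ 1) (hη : 0 < η) :
    ∃ β : ℝ, 0 < β ∧ ∀ e : ℝ, 0 < e → e ≤ 1 / 2 → ∀ M : ℝ, 0 ≤ M → ∃ r₀ : ℝ, 0 < r₀ ∧
      ∀ (f : sphere (0 : X) 1 ≃ᵢ sphere (0 : Y) 1) (z w : sphere (0 : X) 1),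
        l ≤ ‖(z : X) - w‖ → ∀ (r G : ℝ) (st : St f r), 0 < r → r ≤ r₀ → gain X r ≤ G →
          gain Y r ≤ G → 0 < G → G ≤ r → gain X (e * r) ≤ β * e * G →
            gain Y (e * r) ≤ β * e * G → ‖st.v - z‖ ≤ M * G →
              J ((f z : Y) - f w) (st.u - (f z : Y)) - J ((z : X) - w) (st.v - z) ≤ η * G := by
  obtain ⟨σ, hσ, A, hA, hds⟩ := double_step NX NY GX GY hl
  set θ := min (η / 3) (l / 2) with hθ
  have hθ0 : 0 < θ := lt_min (by positivity) (by positivity)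
  have hθl : θ ≤ l / 2 := min_le_right _ _
  have hθη : θ ≤ η / 3 := min_le_left _ _
  refine ⟨θ * η / 12, by positivity, fun e he he1 M hM => ?_⟩
  set ε := e * (l / 2) with hε
  have hε0 : 0 < ε := by positivity
  have hε1 : ε ≤ 1 / 4 := by
    have := mul_le_mul he1 (show l / 2 ≤ 1 / 2 by linarith) (by positivity) (by positivity)
    linarith
  obtain ⟨n, hpow, hcount⟩ := count_bound hθ0 (by linarith) hε0 hε1
  set B := A ^ n * (M + 1) with hB
  have hB0 : 0 < B := by positivity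
  obtain ⟨t, ht, hexp⟩ := NX.expand (η / (3 * B)) (by positivity)
  refine ⟨min σ (min (σ / B) (min (t * l / B) (l / (2 * B)))), by positivity, ?_⟩
  intro f z w hzw r G st hr hr₀ hgX hgY hG hGr heX heY hE
  simp only [le_min_iff] at hr₀
  obtain ⟨hr₁, hr₂, hr₃, hr₄⟩ := hr₀
  rw [le_div_iff₀ hB0] at hr₂ hr₃
  rw [le_div_iff₀ (by positivity)] at hr₄
  have hcr : (1 - (1 - ε)) * r / (l / 2) = e * r := by rw [hε]; field_simp; ring
  set cost := l * (θ * η / 12 * e * G) with hcost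
  have hc0 : 0 ≤ 1 - ε := by linarith
  have it := iterate GX GY (f := f) (z := z) (w := w) (R := r) (cost := cost) hA hG hc0
    (by linarith) (fun ρ s h0 hρ hsm => hds f z w hzw ρ G (1 - ε) s h0 (hρ.trans hr₁)
      ((GX.mono _ _ h0 hρ).trans hgX) ((GY.mono _ _ h0 hρ).trans hgY) hG hsm hc0 (by linarith)) hl
    (by rw [hcr, hcost]
        have := mul_le_mul_of_nonneg_left heX (show 0 ≤ l / 2 by linarith); linarith)
    (by rw [hcr, hcost]
        have := mul_le_mul_of_nonneg_left heY (show 0 ≤ l / 2 by linarith); linarith)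
  have hEG : ‖st.v - z‖ + G ≤ (M + 1) * G := by linarith
  have hBG : A ^ n * (‖st.v - z‖ + G) ≤ B * G := by
    rw [hB, mul_assoc]; exact mul_le_mul_of_nonneg_left hEG (by positivity)
  have hBr : B * G ≤ B * r := mul_le_mul_of_nonneg_left hGr hB0.le
  obtain ⟨ρ, s, hρ0, hρ, hsv, hp⟩ := it n r st hr.le le_rfl (by linarith)
  have hρθ : ρ ≤ θ * r := hρ.trans (mul_le_mul_of_nonneg_right hpow hr.le)
  have hcostn : n * cost ≤ η / 3 * G := by
    have h := mul_le_mul_of_nonneg_right hcount (show 0 ≤ 2 * (η / 12 * G) by positivity)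
    have e1 : n * cost = n * ε * θ * (2 * (η / 12 * G)) := by rw [hcost, hε]; ring
    have : 0 ≤ η * G := by positivity
    linarith
  have hh1 : ‖s.v - z‖ ≤ B * G := by linarith
  have htl : t * l ≤ t * ‖(z : X) - w‖ := mul_le_mul_of_nonneg_left hzw ht.le
  have he1' := hexp ((z : X) - w) (s.v - z) (norm_pos_iff.1 (hl.trans_le hzw)) (by linarith)
  have he2 : η / (3 * B) * ‖s.v - z‖ ≤ η / 3 * G := by
    refine (mul_le_mul_of_nonneg_left hh1 (by positivity)).trans_eq ?_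
    field_simp
  have hgain : l / 2 * gain X (ρ / (l / 2)) ≤ η / 3 * G := by
    have h1 : ρ / (l / 2) ≤ θ / (l / 2) * r := by
      rw [div_mul_eq_mul_div]; exact div_le_div_of_nonneg_right hρθ (by positivity)
    have h2 := (GX.mono _ _ (by positivity) h1).trans
      (GX.mul_le (θ / (l / 2)) r (by positivity) ((div_le_one (by positivity)).2 hθl) hr.le)
    refine (mul_le_mul_of_nonneg_left h2 (by positivity)).trans ?_
    rw [← mul_assoc, mul_div_cancel₀ _ (by positivity)]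
    exact mul_le_mul hθη hgX (GX.nonneg r hr.le) (by positivity)
  have hb := base GX (a := η / 3 * G) hl hzw s (by linarith) (by linarith) hgain
  simp only [phi] at hp hb
  rw [map_sub (J ((f z : Y) - f w)) st.u (f z : Y), map_sub (J ((z : X) - w)) st.v (z : X)]
  linarith

end Vale.Agent.P084.Smooth
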