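import Vale.Agent.P084.Smooth.Pins

/-!
P084: elementary facts about the asymptotic radius and the gain function, valid in every space.
-/

open Filter Topology

namespace Vale.Agent.P084.Smooth

universe u

variable {X : Type u} [NormedAddCommGroup X] [NormedSpace ℝ X]

theorem u0_le_atTop : (U0 : Filter ℕ) ≤ atTop := Nat.hyperfilter_le_atTop

/-- an upper bound for the limit, from a pointwise comparison with a convergent sequence -/
theorem ulim_le_of_tendsto {a b : ℕ → ℝ} {lo hi l : ℝ}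
    (ha : ∀ᶠ n in (U0 : Filter ℕ), a n ∈ Set.Icc lo hi) (hb : Tendsto b U0 (𝓝 l))
    (h : ∀ᶠ n in (U0 : Filter ℕ), a n ≤ b n) : ulim a ≤ l :=
  le_of_tendsto_of_tendsto (ulim_spec ha) hb h

theorem Bdd.inner_tendsto {x : ℕ → X} (hx : Bdd x) (n : ℕ) :
    Tendsto (fun m => ‖x n - x m‖) U0 (𝓝 (ulim fun m => ‖x n - x m‖)) := by
  obtain ⟨M, hM⟩ := hx
  exact ulim_spec (lo := 0) (hi := ‖x n‖ + M) (hM.mono fun m hm =>
    ⟨norm_nonneg _, (norm_sub_le _ _).trans (by linarith)⟩)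

theorem Bdd.rad_tendsto {x : ℕ → X} (hx : Bdd x) :
    Tendsto (fun n => ulim fun m => ‖x n - x m‖) U0 (𝓝 (rad x)) := by
  obtain ⟨M, hM⟩ := id hx
  refine ulim_spec (lo := 0) (hi := M + M) (hM.mono fun n hn => ⟨?_, ?_⟩)
  · exact ge_of_tendsto (hx.inner_tendsto n) (Eventually.of_forall fun _ => norm_nonneg _)
  · exact le_of_tendsto (hx.inner_tendsto n)
      (hM.mono fun m hm => (norm_sub_le _ _).trans (add_le_add hn hm))

theorem Bdd.rad_nonneg {x : ℕ → X} (hx : Bdd x) : 0 ≤ rad x :=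
  ge_of_tendsto hx.rad_tendsto (Eventually.of_forall fun n =>
    ge_of_tendsto (hx.inner_tendsto n) (Eventually.of_forall fun _ => norm_nonneg _))

theorem rad_sub_const (x : ℕ → X) (v : X) : rad (fun n => x n - v) = rad x := by
  simp [rad]

theorem rad_zero : rad (fun _ : ℕ => (0 : X)) = 0 := by
  simp [rad, ulim_eq tendsto_const_nhds]

theorem Bdd.rad_smul {x : ℕ → X} (hx : Bdd x) {c : ℝ} (hc : 0 ≤ c) :
    rad (fun n => c • x n) = c * rad x := by
  have h : ∀ n, (ulim fun m => ‖c • x n - c • x m‖) = c * ulim fun m => ‖x n - x m‖ := fun n => by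
    refine ulim_eq ?_
    simp_rw [← smul_sub, norm_smul, Real.norm_of_nonneg hc]
    exact (hx.inner_tendsto n).const_mul c
  simp only [rad, h]
  exact ulim_eq (hx.rad_tendsto.const_mul c)

theorem norm_le_rad' {x : ℕ → X} {v : X} (hb : Bdd x) (h : WL x v) :
    (ulim fun n => ‖x n - v‖) ≤ rad x := by
  refine le_of_tendsto_of_tendsto' (hb.sub_const v).tendsto_norm hb.rad_tendsto fun n => ?_
  have hw : WL (fun m => x n - x m) (x n - v) := fun φ => by
    simpa [map_sub] using (h φ).const_sub (φ (x n))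
  obtain ⟨M, hM⟩ := hb
  exact hw.norm_le ⟨‖x n‖ + M, hM.mono fun m hm => (norm_sub_le _ _).trans (by linarith)⟩

theorem null_norm_le {ν : ℕ → X} {r : ℝ} (hb : Bdd ν) (h : WL ν 0) (hr : rad ν ≤ r) :
    (ulim fun n => ‖ν n‖) ≤ r := by
  simpa using (norm_le_rad' hb h).trans hr

theorem Bdd.const_add {ν : ℕ → X} (hb : Bdd ν) (z : X) : Bdd fun n => z + ν n :=
  (bdd_const z).add hb

theorem WL.const_add {ν : ℕ → X} (h : WL ν 0) (z : X) : WL (fun n => z + ν n) z := fun φ => by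
  simpa [map_add] using (h φ).const_add (φ z)

theorem norm_le_ulim_add {ν : ℕ → X} (hb : Bdd ν) (h : WL ν 0) (z : X) :
    ‖z‖ ≤ ulim fun n => ‖z + ν n‖ := (h.const_add z).norm_le (hb.const_add z)

theorem gainSet_le {r g : ℝ} (hg : g ∈ gainSet X r) : g ≤ r := by
  obtain ⟨z, ν, hz, hb, hw, hr, rfl⟩ := hg
  have h1 : (ulim fun n => ‖z + ν n‖) ≤ 1 + ulim fun n => ‖ν n‖ :=
    le_of_tendsto_of_tendsto' (hb.const_add z).tendsto_norm (hb.tendsto_norm.const_add 1)
      fun n => (norm_add_le _ _).trans (by rw [hz])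
  linarith [null_norm_le hb hw hr]

theorem gainSet_nonneg {r g : ℝ} (hg : g ∈ gainSet X r) : 0 ≤ g := by
  obtain ⟨z, ν, hz, hb, hw, hr, rfl⟩ := hg
  linarith [norm_le_ulim_add hb hw z, hz]

theorem le_gain {r g : ℝ} (hg : g ∈ gainSet X r) : g ≤ gain X r :=
  le_csSup ⟨r, fun _ h => gainSet_le h⟩ hg

theorem gain_nonneg (r : ℝ) : 0 ≤ gain X r := Real.sSup_nonneg fun _ h => gainSet_nonneg h

theorem gain_le_self {r : ℝ} (hr : 0 ≤ r) : gain X r ≤ r :=
  Real.sSup_le (fun _ h => gainSet_le h) hr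

theorem ulim_le_gain {z : X} {ν : ℕ → X} {r : ℝ} (hz : ‖z‖ = 1) (hb : Bdd ν) (hw : WL ν 0)
    (hr : rad ν ≤ r) : (ulim fun n => ‖z + ν n‖) ≤ 1 + gain X r := by
  linarith [le_gain ⟨z, ν, hz, hb, hw, hr, rfl⟩]

theorem gain_mul_le {t : ℝ} (r : ℝ) (ht0 : 0 ≤ t) (ht1 : t ≤ 1) :
    gain X (t * r) ≤ t * gain X r := by
  refine Real.sSup_le (fun g hg => ?_) (mul_nonneg ht0 (gain_nonneg r))
  rcases ht0.eq_or_lt with rfl | ht
  · simpa using gainSet_le hg
  obtain ⟨z, ν, hz, hb, hw, hr, rfl⟩ := hg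
  have hrad : rad (fun n => t⁻¹ • ν n) ≤ r := by
    rw [hb.rad_smul (inv_nonneg.2 ht.le), inv_mul_le_iff₀ ht]
    exact hr
  have hup := ulim_le_gain hz (hb.smul t⁻¹) (by simpa using hw.smul t⁻¹) hrad
  have h1 : (ulim fun n => ‖z + ν n‖) ≤ (1 - t) + t * ulim fun n => ‖z + t⁻¹ • ν n‖ :=
    le_of_tendsto_of_tendsto' (hb.const_add z).tendsto_norm
      ((((hb.smul t⁻¹).const_add z).tendsto_norm.const_mul t).const_add (1 - t)) fun n => by
      have e : z + ν n = (1 - t) • z + t • (z + t⁻¹ • ν n) := by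
        rw [smul_add, smul_smul, mul_inv_cancel₀ ht.ne', one_smul, sub_smul, one_smul]
        abel
      rw [e]
      refine (norm_add_le _ _).trans (le_of_eq ?_)
      rw [norm_smul, norm_smul, hz, Real.norm_of_nonneg (sub_nonneg.2 ht1),
        Real.norm_of_nonneg ht.le, mul_one]
  linarith [mul_le_mul_of_nonneg_left hup ht.le]

theorem gain_mono {r s : ℝ} (hr : 0 ≤ r) (h : r ≤ s) : gain X r ≤ gain X s := by
  rcases hr.eq_or_lt with rfl | hr0
  · exact (gain_le_self le_rfl).trans (gain_nonneg s)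
  have hs : 0 < s := hr0.trans_le h
  have h1 := gain_mul_le (X := X) (t := r / s) s (div_nonneg hr hs.le) ((div_le_one hs).2 h)
  rw [div_mul_cancel₀ r hs.ne'] at h1
  exact h1.trans (mul_le_of_le_one_left (gain_nonneg s) ((div_le_one hs).2 h))

theorem gain_persp {r s s' : ℝ} (hs : 0 < s) (hss : s ≤ s') :
    s' * gain X (r / s') ≤ s * gain X (r / s) := by
  have hs' : 0 < s' := hs.trans_le hss
  have h := gain_mul_le (X := X) (t := s / s') (r / s) (div_nonneg hs.le hs'.le)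
    ((div_le_one hs').2 hss)
  rw [div_mul_div_cancel₀' hs.ne', div_mul_eq_mul_div, le_div_iff₀ hs'] at h
  linarith [mul_comm s' (gain X (r / s'))]

theorem ulim_add_le {x : X} {ν : ℕ → X} {r s : ℝ} (hb : Bdd ν) (hw : WL ν 0) (hr : rad ν ≤ r)
    (hs : 0 < s) (hsx : s ≤ ‖x‖) :
    (ulim fun n => ‖x + ν n‖) ≤ ‖x‖ + s * gain X (r / s) := by
  have hpos : 0 < ‖x‖ := hs.trans_le hsx
  have hz : ‖‖x‖⁻¹ • x‖ = 1 := norm_smul_inv_norm (𝕜 := ℝ) (norm_pos_iff.1 hpos)
  have hrad : rad (fun n => ‖x‖⁻¹ • ν n) ≤ r / ‖x‖ := by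
    rw [hb.rad_smul (inv_nonneg.2 hpos.le), inv_mul_le_iff₀ hpos, mul_div_cancel₀ r hpos.ne']
    exact hr
  have hup := ulim_le_gain hz (hb.smul _) (by simpa using hw.smul ‖x‖⁻¹) hrad
  have h1 : (ulim fun n => ‖x + ν n‖) ≤
      ‖x‖ * ulim fun n => ‖‖x‖⁻¹ • x + ‖x‖⁻¹ • ν n‖ :=
    le_of_tendsto_of_tendsto' (hb.const_add x).tendsto_norm
      (((hb.smul _).const_add _).tendsto_norm.const_mul ‖x‖) fun n => by
      rw [← smul_add, norm_smul, Real.norm_of_nonneg (inv_nonneg.2 hpos.le), ← mul_assoc,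
        mul_inv_cancel₀ hpos.ne', one_mul]
  linarith [mul_le_mul_of_nonneg_left hup hpos.le, gain_persp (X := X) (r := r) hs hsx,
    mul_add ‖x‖ 1 (gain X (r / ‖x‖))]

theorem ulim_add_le_small {x : X} {ν : ℕ → X} {r : ℝ} (hb : Bdd ν) (hw : WL ν 0)
    (hr : rad ν ≤ r) (hx : ‖x‖ ≤ 1) :
    (ulim fun n => ‖x + ν n‖) ≤ ‖x‖ + gain X r + (1 - ‖x‖) * r := by
  rcases eq_or_ne x 0 with rfl | hx0
  · simpa using (null_norm_le hb hw hr).trans (le_add_of_nonneg_left (gain_nonneg r))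
  set z := ‖x‖⁻¹ • x
  have hpos : 0 < ‖x‖ := norm_pos_iff.2 hx0
  have h1 : (ulim fun n => ‖x + ν n‖) ≤
      (‖x‖ * ulim fun n => ‖z + ν n‖) + (1 - ‖x‖) * ulim fun n => ‖ν n‖ :=
    le_of_tendsto_of_tendsto' (hb.const_add x).tendsto_norm
      (((hb.const_add z).tendsto_norm.const_mul ‖x‖).add (hb.tendsto_norm.const_mul (1 - ‖x‖)))
      fun n => by
      have e : x + ν n = ‖x‖ • (z + ν n) + (1 - ‖x‖) • ν n := by
        simp only [z]
        rw [smul_add, smul_smul, mul_inv_cancel₀ hpos.ne', one_smul, sub_smul, one_smul]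
        abel
      rw [e]
      refine (norm_add_le _ _).trans (le_of_eq ?_)
      rw [norm_smul, norm_smul, Real.norm_of_nonneg hpos.le,
        Real.norm_of_nonneg (sub_nonneg.2 hx)]
  have h2 := mul_le_mul_of_nonneg_left (ulim_le_gain (norm_smul_inv_norm (𝕜 := ℝ) hx0) hb hw hr) hpos.le
  have h3 := mul_le_mul_of_nonneg_left (null_norm_le hb hw hr) (sub_nonneg.2 hx)
  have h4 := mul_le_mul_of_nonneg_right hx (gain_nonneg (X := X) r)
  simp only [z, RCLike.ofReal_real_eq_id, id_eq] at h1 h2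
  linarith [mul_add ‖x‖ 1 (gain X r)]

theorem gainFacts (X : Type u) [NormedAddCommGroup X] [NormedSpace ℝ X] : GainFacts X where
  rad_nonneg _ h := h.rad_nonneg
  norm_le_rad _ _ hb h := norm_le_rad' hb h
  nonneg r _ := gain_nonneg r
  le_self _ hr := gain_le_self hr
  mono _ _ hr h := gain_mono hr h
  mul_le _ r h0 h1 _ := gain_mul_le r h0 h1
  upper _ _ _ _ hb hw hr hs hsx := ulim_add_le hb hw hr hs hsx
  upper_small _ _ _ hb hw hr hx := ulim_add_le_small hb hw hr hx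
  near r _ hG q hq := by
    have hne : (gainSet X r).Nonempty := Set.nonempty_iff_ne_empty.2 fun h => by
      simp [gain, h] at hG
    obtain ⟨g, ⟨z, ν, hz, hb, hw, hr, rfl⟩, hg⟩ := exists_lt_of_lt_csSup hne
      (show q * gain X r < gain X r from mul_lt_of_lt_one_left hG hq)
    exact ⟨z, ν, hz, hb, hw, hr, by linarith⟩

end Vale.Agent.P084.Smooth
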