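import Vale.Agent.P084.Smooth.GainBasic

/-!
P084: the gain function of the target has power type, the gain is positive, and good scales exist.
-/

open Filter Topology Metric

namespace Vale.Agent.P084.Smooth

universe u v

variable {X : Type u} [NormedAddCommGroup X] [NormedSpace ℝ X]

/-- gains are bounded by the second differences of the norm -/
theorem gain_le_of_smooth {r b : ℝ} (hb : 0 ≤ b)
    (h : ∀ ε : ℝ, 0 < ε → ∃ t : ℝ, r < t ∧ ∀ x k : X, ‖x‖ = 1 → ‖k‖ ≤ t →
      ‖x + k‖ + ‖x - k‖ ≤ 2 + b + ε) :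
    gain X r ≤ b := by
  refine Real.sSup_le (fun g hg => ?_) hb
  obtain ⟨z, ν, hz, hν, hw, hr, rfl⟩ := hg
  refine le_of_forall_pos_le_add fun ε hε => ?_
  obtain ⟨t, ht, hs⟩ := h ε hε
  have hneg : WL (fun n => (-1 : ℝ) • ν n) 0 := by simpa using hw.smul (-1)
  have h1 := norm_le_ulim_add (hν.smul (-1)) hneg z
  rw [hz] at h1
  have h3 : (ulim fun n => ‖z + ν n‖) + (ulim fun n => ‖z + (-1 : ℝ) • ν n‖) ≤ 2 + b + ε :=
    le_of_tendsto ((hν.const_add z).tendsto_norm.add ((hν.smul (-1)).const_add z).tendsto_norm) <| by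
      filter_upwards [hν.tendsto_norm.eventually (eventually_lt_nhds
        ((null_norm_le hν hw hr).trans_lt ht))] with n hn
      rw [neg_one_smul, ← sub_eq_add_neg]
      exact hs z (ν n) hz hn.le
  linarith

theorem gain_le_rpow {C p : ℝ} (hp : 1 ≤ p) (h : SmoothP X p C) {r : ℝ} (hr : 0 ≤ r) :
    gain X r ≤ max C 0 * r ^ p := by
  refine gain_le_of_smooth (mul_nonneg (le_max_right _ _) (Real.rpow_nonneg hr p)) fun ε hε => ?_
  have hcont : ContinuousAt (fun t : ℝ => max C 0 * t ^ p) r :=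
    (Real.continuousAt_rpow_const r p (Or.inr (by linarith))).const_mul _
  obtain ⟨δ, hδ, hball⟩ := Metric.continuousAt_iff.1 hcont ε hε
  refine ⟨r + δ / 2, by linarith, fun x k hx hk => (h x k hx).trans ?_⟩
  have h1 : C * ‖k‖ ^ p ≤ max C 0 * (r + δ / 2) ^ p :=
    (mul_le_mul_of_nonneg_right (le_max_left C 0) (Real.rpow_nonneg (norm_nonneg k) p)).trans
      (mul_le_mul_of_nonneg_left (Real.rpow_le_rpow (norm_nonneg k) hk (by linarith))
        (le_max_right C 0))
  have h2 := hball (x := r + δ / 2) (by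
    rw [Real.dist_eq, add_sub_cancel_left, abs_of_pos (half_pos hδ)]; linarith)
  rw [Real.dist_eq, abs_lt] at h2
  linarith [h2.2]

theorem gain_littleO (h : SmoothU X) :
    ∀ ε : ℝ, 0 < ε → ∃ ρ : ℝ, 0 < ρ ∧ ∀ r : ℝ, 0 ≤ r → r ≤ ρ → gain X r ≤ ε * r := by
  intro ε hε
  obtain ⟨δ, hδ, hs⟩ := h ε hε
  refine ⟨δ / 2, half_pos hδ, fun r hr hrδ =>
    gain_le_of_smooth (by positivity) fun η hη => ?_⟩
  refine ⟨r + min (δ / 2) (η / ε), by linarith [lt_min (half_pos hδ) (div_pos hη hε)],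
    fun x k hx hk => ?_⟩
  have h1 := mul_le_mul_of_nonneg_left (min_le_right (δ / 2) (η / ε)) hε.le
  rw [mul_div_cancel₀ η hε.ne'] at h1
  have h2 := mul_le_mul_of_nonneg_left hk hε.le
  have h3 := hs x k hx (by linarith [min_le_left (δ / 2) (η / ε)])
  linarith [mul_add ε r (min (δ / 2) (η / ε))]

/-- uniform convexity and infinite dimension make the gain positive -/
theorem gain_pos [CompleteSpace X] [UniformConvexSpace X] (hinf : ¬FiniteDimensional ℝ X)
    {r : ℝ} (hr : 0 < r) : 0 < gain X r := by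
  obtain ⟨R, x, hR, hx, hsep⟩ := exists_seq_norm_le_one_le_norm_sub (𝕜 := ℝ) hinf
  obtain ⟨v, hv⟩ := exists_wl hx
  have hne : x 0 - x 1 ≠ 0 := fun h => by
    have := hsep (show (0 : ℕ) ≠ 1 by simp)
    simp [h] at this
    linarith
  obtain ⟨z, hz⟩ : ∃ z : X, ‖z‖ = 1 := ⟨_, norm_smul_inv_norm (𝕜 := ℝ) hne⟩
  have hxb : Bdd x := ⟨R, Eventually.of_forall hx⟩
  set c := r / (2 * R) with hc
  have hc0 : 0 < c := div_pos hr (by linarith)
  set μ := fun n => c • (x n - v) with hμdef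
  have hμ : WL μ 0 := by
    have := (hv.sub_const v).smul c
    simpa using this
  have hμb : Bdd μ := (hxb.sub_const v).smul c
  have hμr : rad μ ≤ r := by
    rw [hμdef, (hxb.sub_const v).rad_smul hc0.le, rad_sub_const]
    have h1 : rad x ≤ R + R := le_of_tendsto hxb.rad_tendsto (Eventually.of_forall fun n =>
      le_of_tendsto (hxb.inner_tendsto n) (Eventually.of_forall fun m =>
        (norm_sub_le _ _).trans (add_le_add (hx n) (hx m))))
    calc c * rad x ≤ c * (R + R) := mul_le_mul_of_nonneg_left h1 hc0.le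
      _ = r := by rw [hc]; field_simp; ring
  refine lt_of_le_of_ne (gain_nonneg r) fun h0 => ?_
  obtain ⟨δ, hδ, huc⟩ :=
    exists_forall_closed_ball_dist_add_le_two_sub X (show (0 : ℝ) < c / 4 by linarith)
  set η := min 1 (δ / 2) / 4 with hη
  have hη0 : 0 < η := by have := lt_min one_pos (half_pos hδ); positivity
  have hη1 : η ≤ 1 / 4 := by rw [hη]; linarith [min_le_left (1 : ℝ) (δ / 2)]
  have hη2 : 8 * η ≤ δ := by rw [hη]; linarith [min_le_right (1 : ℝ) (δ / 2)]
  have hup := ulim_le_gain hz hμb hμ hμr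
  rw [← h0, add_zero] at hup
  have hhalf : WL (fun n => (2 : ℝ)⁻¹ • μ n) 0 := by simpa using hμ.smul (2 : ℝ)⁻¹
  have hlow := norm_le_ulim_add (hμb.smul (2 : ℝ)⁻¹) hhalf z
  rw [hz] at hlow
  have key : ∀ᶠ n in (U0 : Filter ℕ), ‖μ n‖ < c / 2 := by
    filter_upwards [(hμb.const_add z).tendsto_norm.eventually
        (eventually_lt_nhds (show _ < 1 + η by linarith)),
      ((hμb.smul (2 : ℝ)⁻¹).const_add z).tendsto_norm.eventually
        (eventually_gt_nhds (show 1 - η < _ by linarith))] with n h1 h2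
    by_contra hbig
    rw [not_lt] at hbig
    set b := (1 + η)⁻¹ with hb
    have hb0 : 0 < b := by positivity
    have hb1 : b * (1 + η) = 1 := inv_mul_cancel₀ (by linarith)
    have hbz : ‖b • z‖ ≤ 1 := by
      rw [norm_smul, Real.norm_of_nonneg hb0.le, hz]; nlinarith
    have hbm : ‖b • (z + μ n)‖ ≤ 1 := by
      rw [norm_smul, Real.norm_of_nonneg hb0.le]
      linarith [mul_le_mul_of_nonneg_left h1.le hb0.le]
    have hdist : c / 4 ≤ ‖b • (z + μ n) - b • z‖ := by
      rw [← smul_sub, add_sub_cancel_left, norm_smul, Real.norm_of_nonneg hb0.le]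
      nlinarith
    have h3 := huc hbm hbz hdist
    rw [← smul_add, show z + μ n + z = (2 : ℝ) • (z + (2 : ℝ)⁻¹ • μ n) by
      rw [smul_add, smul_smul, mul_inv_cancel₀ (two_ne_zero' ℝ), one_smul, two_smul]; abel,
      norm_smul, norm_smul, Real.norm_of_nonneg hb0.le, Real.norm_two] at h3
    have h4 : b * (2 * (1 - η)) ≤ 2 - δ := le_trans
      (mul_le_mul_of_nonneg_left (by linarith) hb0.le) h3
    nlinarith
  obtain ⟨n, hn⟩ := key.exists
  obtain ⟨m, hm, hnm⟩ := (key.and (u0_le_atTop (eventually_gt_atTop n))).exists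
  have h4 : c ≤ ‖μ n - μ m‖ := by
    simp only [hμdef]
    rw [← smul_sub, norm_smul, Real.norm_of_nonneg hc0.le, sub_sub_sub_cancel_right]
    exact le_mul_of_one_le_right hc0.le (hsep (Nat.ne_of_lt hnm))
  linarith [norm_sub_le (μ n) (μ m)]

/-- Good scales: a function of power type `p` somewhere drops by `e ^ (1 + γ)` for `γ < p - 1`. -/
theorem exists_scale {G : ℝ → ℝ} {B ρ p γ : ℝ} (hρ : 0 < ρ) (hγ : 1 + γ < p)
    (hpos : ∀ r : ℝ, 0 < r → 0 < G r) (hB : ∀ r : ℝ, 0 < r → r ≤ ρ → G r ≤ B * r ^ p)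
    {e : ℝ} (he0 : 0 < e) (he1 : e < 1) {r₀ : ℝ} (hr₀ : 0 < r₀) :
    ∃ r : ℝ, 0 < r ∧ r ≤ r₀ ∧ G (e * r) ≤ e ^ (1 + γ) * G r := by
  by_contra h
  push Not at h
  set r := min r₀ ρ with hr
  have hr0 : 0 < r := lt_min hr₀ hρ
  set w := e ^ (1 + γ) with hwdef
  have hw : 0 < w := Real.rpow_pos_of_pos he0 _
  have hek : ∀ k : ℕ, 0 < e ^ k * r ∧ e ^ k * r ≤ r := fun k =>
    ⟨by positivity, mul_le_of_le_one_left hr0.le (pow_le_one₀ he0.le he1.le)⟩
  have key : ∀ k : ℕ, w ^ k * G r ≤ G (e ^ k * r) := by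
    intro k
    induction k with
    | zero => simp
    | succ k ih =>
      have h1 := h (e ^ k * r) (hek k).1 ((hek k).2.trans (min_le_left _ _))
      rw [pow_succ' e k, mul_assoc, pow_succ' w k, mul_assoc]
      exact (mul_le_mul_of_nonneg_left ih hw.le).trans h1.le
  set v := e ^ p / w with hvdef
  have hv1 : v < 1 := by
    rw [hvdef, div_lt_one hw, hwdef]
    exact Real.rpow_lt_rpow_of_exponent_gt he0 he1 hγ
  have hv0 : 0 ≤ v := by positivity
  have hBp : 0 < B * r ^ p := (hpos r hr0).trans_le (hB r hr0 (min_le_right _ _))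
  obtain ⟨k, hk⟩ := exists_pow_lt_of_lt_one (div_pos (hpos r hr0) hBp) hv1
  have h1 := (key k).trans (hB _ (hek k).1 ((hek k).2.trans (min_le_right _ _)))
  rw [Real.mul_rpow (by positivity) hr0.le, ← Real.rpow_natCast_mul he0.le, mul_comm (k : ℝ) p,
    Real.rpow_mul_natCast he0.le] at h1
  rw [hvdef, div_pow, div_lt_div_iff₀ (by positivity) hBp] at hk
  have e1 : (e ^ p) ^ k * (B * r ^ p) = B * ((e ^ p) ^ k * r ^ p) := by ring
  linarith [mul_comm (G r) (w ^ k)]

variable {Y : Type v} [NormedAddCommGroup Y] [NormedSpace ℝ Y]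

/-- one step of the transfer: the gain of the target against itself at about half the scale -/
theorem gain_target_step [CompleteSpace X] [UniformConvexSpace X]
    (f : sphere (0 : X) 1 ≃ᵢ sphere (0 : Y) 1) {r : ℝ} (hr : 0 ≤ r) (hr1 : r ≤ 1 / 10) :
    gain Y r ≤ (1 + r) * (2 * gain X r + 2 * gain Y (r / (2 - 3 * r))) := by
  classical
  have hGY := gain_nonneg (X := Y) (r / (2 - 3 * r))
  have hGX := gain_nonneg (X := X) r
  refine Real.sSup_le (fun g hg => ?_) (by positivity)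
  have hg0 := gainSet_nonneg hg
  have hgr := gainSet_le hg
  obtain ⟨y, ν, hy, hν, hw, hrad, rfl⟩ := hg
  set A := ulim fun n => ‖y + ν n‖ with hAdef
  have hA : Tendsto (fun n => ‖y + ν n‖) U0 (𝓝 A) := (hν.const_add y).tendsto_norm
  have hA0 : 0 < A := by linarith
  set b := A⁻¹ with hbdef
  have hb0 : 0 < b := inv_pos.2 hA0
  have hb1 : b ≤ 1 := inv_le_one_of_one_le₀ (by linarith)
  have hαinv : Tendsto (fun n => ‖y + ν n‖⁻¹) U0 (𝓝 b) := hA.inv₀ hA0.ne'
  -- normalised points on the target sphere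
  let η : ℕ → sphere (0 : Y) 1 := fun n =>
    if h : y + ν n = 0 then ⟨y, mem_sphere_zero_iff_norm.2 hy⟩
    else ⟨‖y + ν n‖⁻¹ • (y + ν n), mem_sphere_zero_iff_norm.2 (norm_smul_inv_norm h)⟩
  have hη : ∀ᶠ n in (U0 : Filter ℕ), (η n : Y) = ‖y + ν n‖⁻¹ • (y + ν n) := by
    filter_upwards [hA.eventually (eventually_gt_nhds hA0)] with n hn
    simp only [η, dif_neg (norm_pos_iff.1 hn)]
  have hηb : Bdd fun n => (η n : Y) :=
    ⟨1, Eventually.of_forall fun n => (mem_sphere_zero_iff_norm.1 (η n).2).le⟩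
  have hηw : WL (fun n => (η n : Y)) (b • y) := fun φ => by
    have h1 : Tendsto (fun n => ‖y + ν n‖⁻¹ * (φ y + φ (ν n))) U0 (𝓝 (b * (φ y + φ 0))) :=
      hαinv.mul ((hw φ).const_add (φ y))
    rw [map_zero, add_zero] at h1
    rw [map_smul, smul_eq_mul]
    exact h1.congr' (hη.mono fun n hn => by simp only [hn, map_smul, map_add, smul_eq_mul])
  have hηr : rad (fun n => (η n : Y)) ≤ r := by
    have h1 : rad (fun n => (η n : Y)) ≤ b * rad ν + 0 * A := by
      have h0 : Tendsto (fun n => |‖y + ν n‖⁻¹ - b| * A) U0 (𝓝 (0 * A)) := by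
        simpa using ((hαinv.sub_const b).abs).mul_const A
      refine le_of_tendsto_of_tendsto hηb.rad_tendsto ((hαinv.mul hν.rad_tendsto).add h0)
        (hη.mono fun n hn => ?_)
      refine le_of_tendsto_of_tendsto (hηb.inner_tendsto n) (((hν.inner_tendsto n).const_mul
        (‖y + ν n‖⁻¹)).add ((((hαinv.const_sub (‖y + ν n‖⁻¹)).abs).mul hA))) (hη.mono fun m hm => ?_)
      have e : (η n : Y) - η m = ‖y + ν n‖⁻¹ • (ν n - ν m) +
          (‖y + ν n‖⁻¹ - ‖y + ν m‖⁻¹) • (y + ν m) := by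
        rw [hn, hm, smul_sub, sub_smul, smul_add, smul_add, smul_add]
        abel
      simp only [e]
      refine (norm_add_le _ _).trans (le_of_eq ?_)
      rw [norm_smul, norm_smul, Real.norm_of_nonneg (inv_nonneg.2 (norm_nonneg _)),
        Real.norm_eq_abs]
    linarith [mul_le_mul hb1 hrad hν.rad_nonneg zero_le_one]
  -- their preimages
  let ξ : ℕ → X := fun n => (f.symm (η n) : X)
  have hone : ∀ n, ‖ξ n‖ = 1 := fun n => mem_sphere_zero_iff_norm.1 (f.symm (η n)).2
  have hξb : Bdd ξ := ⟨1, Eventually.of_forall fun n => (hone n).le⟩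
  obtain ⟨v, hv⟩ := exists_wl (x := ξ) (fun n => (hone n).le)
  have hdist : ∀ a c : sphere (0 : Y) 1, ‖(f.symm a : X) - f.symm c‖ = ‖(a : Y) - c‖ :=
    fun a c => by rw [← dist_eq_norm, ← dist_eq_norm]; exact f.symm.dist_eq a c
  have hξr : rad ξ ≤ r := by
    have e : rad ξ = rad fun n => (η n : Y) := by simp only [rad, ξ, hdist]
    rw [e]; exact hηr
  have hμb : Bdd fun n => ξ n - v := hξb.sub_const v
  have hμw : WL (fun n => ξ n - v) 0 := by simpa using hv.sub_const v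
  have hμr : rad (fun n => ξ n - v) ≤ r := by rwa [rad_sub_const]
  have hconst : (ulim fun n => ‖ξ n‖) = 1 := by simp only [hone]; exact ulim_eq tendsto_const_nhds
  have hv1 : ‖v‖ ≤ 1 := (hv.norm_le hξb).trans hconst.le
  have hsmall := ulim_add_le_small hμb hμw hμr hv1
  simp only [add_sub_cancel, hone, ulim_eq (tendsto_const_nhds (x := (1 : ℝ)))] at hsmall
  set s := ‖v‖ with hs
  have hrGX := gain_le_self (X := X) hr
  have hrs := mul_le_mul_of_nonneg_left hr1 (sub_nonneg.2 hv1)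
  have hsG : 1 - s ≤ 2 * gain X r := by linarith
  have hs0 : 0 < s := by linarith
  let q : sphere (0 : X) 1 := ⟨-(s⁻¹ • v), by
    rw [mem_sphere_zero_iff_norm, norm_neg]; exact norm_smul_inv_norm (norm_pos_iff.1 hs0)⟩
  set w := b • y - (f q : Y) with hwdef
  have hw1 : ‖w‖ ≤ b + 1 := (norm_sub_le _ _).trans (le_of_eq (by
    rw [norm_smul, hy, Real.norm_of_nonneg hb0.le, mul_one, mem_sphere_zero_iff_norm.1 (f q).2]))
  have hub : Bdd fun n => (η n : Y) - b • y := hηb.sub_const _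
  have huw : WL (fun n => (η n : Y) - b • y) 0 := by simpa using hηw.sub_const (b • y)
  have hur : rad (fun n => (η n : Y) - b • y) ≤ r := by rwa [rad_sub_const]
  have hlow : 1 + s ≤ ulim fun n => ‖w + ((η n : Y) - b • y)‖ := by
    have h := norm_le_ulim_add hμb hμw (v - (q : X))
    have e : v - (q : X) = (1 + s⁻¹) • v := by
      simp only [q]; rw [sub_neg_eq_add, add_smul, one_smul]
    have e1 : ‖v - (q : X)‖ = 1 + s := by
      rw [e, norm_smul, Real.norm_of_nonneg (by positivity), ← hs, add_mul, one_mul,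
        inv_mul_cancel₀ hs0.ne', add_comm]
    rw [e1] at h
    refine h.trans (le_of_eq (congrArg ulim (funext fun n => ?_)))
    rw [show v - (q : X) + (ξ n - v) = ξ n - q by abel, hwdef,
      show b • y - (f q : Y) + ((η n : Y) - b • y) = (η n : Y) - f q by abel]
    simp only [ξ]
    conv_lhs => rw [← f.symm_apply_apply q, hdist]
  have hW : 2 - 3 * r ≤ ‖w‖ := by
    have h1 : (ulim fun n => ‖w + ((η n : Y) - b • y)‖) ≤
        ‖w‖ + ulim fun n => ‖(η n : Y) - b • y‖ :=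
      le_of_tendsto_of_tendsto' (hub.const_add w).tendsto_norm (hub.tendsto_norm.const_add ‖w‖)
        fun n => norm_add_le _ _
    linarith [null_norm_le hub huw hur]
  have hmain := ulim_add_le hub huw hur (show 0 < 2 - 3 * r by linarith) hW
  have h1b : 1 - b ≤ 2 * gain X r + 2 * gain Y (r / (2 - 3 * r)) := by
    linarith [mul_le_mul_of_nonneg_right (show 2 - 3 * r ≤ 2 by linarith) hGY]
  have ea : A - 1 = A * (1 - b) := by rw [hbdef, mul_sub, mul_inv_cancel₀ hA0.ne', mul_one]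
  rw [ea]
  exact (mul_le_mul_of_nonneg_left h1b hA0.le).trans
    (mul_le_mul_of_nonneg_right (by linarith) (by linarith))

/-- A scalar iteration turning the step into power type. -/
theorem power_of_step {G : ℝ → ℝ} {A p : ℝ} (hA : 0 ≤ A) (hp : 1 < p)
    (hG : ∀ r : ℝ, 0 ≤ r → r ≤ 1 / 10 →
      G r ≤ (1 + r) * (A * r ^ p + 2 * G (r / (2 - 3 * r))))
    (ho : ∀ ε : ℝ, 0 < ε → ∃ ρ : ℝ, 0 < ρ ∧ ∀ r : ℝ, 0 ≤ r → r ≤ ρ → G r ≤ ε * r) :
    ∃ B ρ : ℝ, 0 ≤ B ∧ 0 < ρ ∧ ∀ r : ℝ, 0 ≤ r → r ≤ ρ → G r ≤ B * r ^ p := by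
  have hcont : ContinuousAt (fun ρ : ℝ => 2 * (1 + ρ) * (1 / (2 - 3 * ρ)) ^ p) 0 := by
    refine ((continuousAt_const.add continuousAt_id).const_mul 2).mul
      (ContinuousAt.rpow_const ?_ (Or.inr (by linarith)))
    exact continuousAt_const.div (by fun_prop) (by norm_num)
  have hlt : 2 * (1 + (0 : ℝ)) * (1 / (2 - 3 * 0)) ^ p < 1 := by
    have h : (1 / 2 : ℝ) ^ p < (1 / 2 : ℝ) ^ (1 : ℝ) :=
      Real.rpow_lt_rpow_of_exponent_gt (by norm_num) (by norm_num) hp
    rw [Real.rpow_one] at h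
    norm_num at h ⊢
    linarith
  obtain ⟨ρ₀, hρ₀, hball⟩ := Metric.eventually_nhds_iff.1 (hcont.eventually (eventually_lt_nhds hlt))
  set ρ := min (ρ₀ / 2) (1 / 10) with hρdef
  have hρ : 0 < ρ := lt_min (half_pos hρ₀) (by norm_num)
  have hρ10 : ρ ≤ 1 / 10 := min_le_right _ _
  set κ := 2 * (1 + ρ) * (1 / (2 - 3 * ρ)) ^ p with hκdef
  have hκ : κ < 1 := hball (show dist ρ 0 < ρ₀ by
    rw [Real.dist_0_eq_abs, abs_of_pos hρ]; linarith [min_le_left (ρ₀ / 2) (1 / 10 : ℝ)])
  set B := (1 + ρ) * A / (1 - κ) with hBdef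
  have hB : 0 ≤ B := div_nonneg (by positivity) (by linarith)
  have hBeq : (1 + ρ) * A + κ * B = B := by
    rw [hBdef]; field_simp [show 1 - κ ≠ 0 by linarith]; ring
  set φ : ℝ → ℝ := fun r => G r - B * r ^ p with hφ
  have hstep : ∀ r : ℝ, 0 ≤ r → r ≤ ρ → φ r ≤ 2 * (1 + r) * φ (r / (2 - 3 * r)) := by
    intro r hr hrρ
    have h := hG r hr (hrρ.trans hρ10)
    have hden : 0 < 2 - 3 * r := by linarith
    have e : (r / (2 - 3 * r)) ^ p = r ^ p * (1 / (2 - 3 * r)) ^ p := by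
      rw [← Real.mul_rpow hr (by positivity), mul_one_div]
    have hmono : (1 / (2 - 3 * r)) ^ p ≤ (1 / (2 - 3 * ρ)) ^ p :=
      Real.rpow_le_rpow (by positivity)
        (one_div_le_one_div_of_le (by linarith) (by linarith)) (by linarith)
    have hcoef : (1 + r) * A + 2 * (1 + r) * (1 / (2 - 3 * r)) ^ p * B ≤ B := by
      refine le_trans ?_ hBeq.le
      rw [hκdef]
      gcongr
    have := mul_le_mul_of_nonneg_right hcoef (Real.rpow_nonneg hr p)
    simp only [hφ]
    rw [e]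
    linarith
  refine ⟨B, ρ, hB, hρ, fun r₀ hr0 hrρ => ?_⟩
  suffices φ r₀ ≤ 0 by simp only [hφ] at this; linarith
  by_contra hpos
  rw [not_le] at hpos
  let rs : ℕ → ℝ := fun k => (fun r : ℝ => r / (2 - 3 * r))^[k] r₀
  have hsucc : ∀ k, rs (k + 1) = rs k / (2 - 3 * rs k) := fun k => by
    simp only [rs, Function.iterate_succ_apply']
  have inv : ∀ k, 0 ≤ rs k ∧ rs k ≤ r₀ * (3 / 5) ^ k ∧
      φ r₀ * rs k ≤ φ (rs k) * (r₀ * Real.exp (13 * r₀ * (1 - (3 / 5) ^ k))) := by
    intro k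
    induction k with
    | zero => simp [rs, hr0]
    | succ k ih =>
      obtain ⟨h0, h1, h2⟩ := ih
      have hp1 : (3 / 5 : ℝ) ^ k ≤ 1 := pow_le_one₀ (by norm_num) (by norm_num)
      have hle : rs k ≤ ρ := h1.trans ((mul_le_of_le_one_right hr0 hp1).trans hrρ)
      have hden : 0 < 2 - 3 * rs k := by linarith
      rw [hsucc]
      refine ⟨div_nonneg h0 hden.le, ?_, ?_⟩
      · rw [pow_succ, div_le_iff₀ hden]
        nlinarith
      · set E := Real.exp (13 * r₀ * (1 - (3 / 5) ^ k)) with hE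
        set ψ := φ (rs k / (2 - 3 * rs k)) with hψ
        have h3 := hstep (rs k) h0 hle
        have hE0 : 0 ≤ r₀ * E := mul_nonneg hr0 (Real.exp_pos _).le
        have h4 : φ r₀ * rs k ≤ 2 * (1 + rs k) * ψ * (r₀ * E) :=
          h2.trans (mul_le_mul_of_nonneg_right h3 hE0)
        have h5 : 2 * (1 + rs k) ≤ (2 - 3 * rs k) * Real.exp (5 * rs k) := by
          have := Real.add_one_le_exp (5 * rs k)
          nlinarith
        have h6 : 0 ≤ ψ * (r₀ * E) := by
          have : 0 ≤ 2 * (1 + rs k) * ψ * (r₀ * E) :=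
            le_trans (mul_nonneg hpos.le h0) h4
          nlinarith
        rw [← mul_div_assoc, div_le_iff₀ hden]
        refine h4.trans ?_
        have h7 : E * Real.exp (5 * rs k) ≤ Real.exp (13 * r₀ * (1 - (3 / 5) ^ (k + 1))) := by
          rw [hE, ← Real.exp_add, Real.exp_le_exp, pow_succ]
          nlinarith [mul_nonneg hr0 (pow_nonneg (show (0 : ℝ) ≤ 3 / 5 by norm_num) k)]
        have hψ0 : 0 ≤ ψ * r₀ := by
          rcases hr0.eq_or_lt with h | h
          · simp [← h]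
          · have := nonneg_of_mul_nonneg_left (show 0 ≤ ψ * r₀ * E by linarith) (Real.exp_pos _)
            exact this
        calc 2 * (1 + rs k) * ψ * (r₀ * E)
            = 2 * (1 + rs k) * (ψ * r₀ * E) := by ring
          _ ≤ (2 - 3 * rs k) * Real.exp (5 * rs k) * (ψ * r₀ * E) :=
              mul_le_mul_of_nonneg_right h5 (by positivity)
          _ = (2 - 3 * rs k) * (ψ * r₀ * (E * Real.exp (5 * rs k))) := by ring
          _ ≤ (2 - 3 * rs k) * (ψ * r₀ * Real.exp (13 * r₀ * (1 - (3 / 5) ^ (k + 1)))) :=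
              mul_le_mul_of_nonneg_left (mul_le_mul_of_nonneg_left h7 hψ0) hden.le
          _ = _ := by ring
  set D := r₀ * Real.exp (13 * r₀) with hD
  have hD0 : 0 ≤ D := by positivity
  set ε := φ r₀ / (D + 1) with hεdef
  have hε : 0 < ε := div_pos hpos (by linarith)
  obtain ⟨ρ', hρ', hsmall⟩ := ho ε hε
  -- G is at most ε r at small r, hence φ r₀ r ≤ ε D r
  rcases hr0.eq_or_lt with h | hr0'
  · have h1 := hsmall 0 le_rfl hρ'.le
    simp only [hφ, ← h, Real.zero_rpow (show p ≠ 0 by linarith)] at hpos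
    linarith
  obtain ⟨k, hk⟩ := exists_pow_lt_of_lt_one (div_pos hρ' hr0') (show (3 / 5 : ℝ) < 1 by norm_num)
  obtain ⟨h0, h1, h2⟩ := inv k
  have hrsk : 0 < rs k := by
    have : ∀ j, 0 < rs j := fun j => by
      induction j with
      | zero => exact hr0'
      | succ j ih =>
        have := (inv j).2.1
        have := mul_le_of_le_one_right hr0 (pow_le_one₀ (show (0 : ℝ) ≤ 3 / 5 by norm_num)
          (show (3 / 5 : ℝ) ≤ 1 by norm_num) (n := j))
        rw [hsucc]
        exact div_pos ih (by linarith)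
    exact this k
  rw [lt_div_iff₀ hr0'] at hk
  have hg := hsmall (rs k) h0 (by linarith)
  have hφk : φ (rs k) ≤ ε * rs k := by
    simp only [hφ]
    linarith [mul_nonneg hB (Real.rpow_nonneg h0 p)]
  have h5 : r₀ * Real.exp (13 * r₀ * (1 - (3 / 5) ^ k)) ≤ D := by
    refine mul_le_mul_of_nonneg_left (Real.exp_le_exp.2 ?_) hr0
    exact mul_le_of_le_one_right (mul_nonneg (by norm_num) hr0)
      (by linarith [pow_nonneg (show (0 : ℝ) ≤ 3 / 5 by norm_num) k])
  have h6 := h2.trans (mul_le_mul hφk h5 (by positivity) (by positivity))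
  have h7 : φ r₀ ≤ ε * D := le_of_mul_le_mul_right (by linarith) hrsk
  have h8 : ε * (D + 1) = φ r₀ := div_mul_cancel₀ _ (by linarith)
  linarith

/-- block B -/
theorem scalePin (X : Type u) [NormedAddCommGroup X] [NormedSpace ℝ X] : ScalePin.{u, v} X := by
  intro Y _ _ _ _ _ _ p C hp hP hU hinf hf
  obtain ⟨f⟩ := hf
  have hpos : ∀ r : ℝ, 0 < r → 0 < max (gain X r) (gain Y r) := fun r hr =>
    (gain_pos hinf hr).trans_le (le_max_left _ _)
  refine ⟨gainFacts X, gainFacts Y, hpos, fun β hβ => ?_⟩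
  have hC : 0 ≤ max C 0 := le_max_right C 0
  obtain ⟨B, ρ, hB, hρ, hY⟩ := power_of_step (G := fun r => gain Y r)
    (mul_nonneg zero_le_two hC) hp
    (fun r hr hr1 => (gain_target_step f hr hr1).trans
      (mul_le_mul_of_nonneg_left (by linarith [gain_le_rpow hp.le hP hr]) (by linarith)))
    (gain_littleO hU)
  set γ := (p - 1) / 2 with hγdef
  have hγ : 0 < γ := by linarith
  refine ⟨min (1 / 2) (β ^ (1 / γ)), lt_min one_half_pos (Real.rpow_pos_of_pos hβ _),
    min_le_left _ _, fun r₀ hr₀ => ?_⟩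
  set e := min (1 / 2) (β ^ (1 / γ))
  have he0 : 0 < e := lt_min one_half_pos (Real.rpow_pos_of_pos hβ _)
  obtain ⟨r, hr, hrr, hle⟩ := exists_scale (G := fun r => max (gain X r) (gain Y r))
    (B := max (max C 0) B) (p := p) (γ := γ) hρ (by linarith) hpos
    (fun r hr hrρ => max_le
      ((gain_le_rpow hp.le hP hr.le).trans
        (mul_le_mul_of_nonneg_right (le_max_left _ _) (Real.rpow_nonneg hr.le p)))
      ((hY r hr.le hrρ).trans
        (mul_le_mul_of_nonneg_right (le_max_right _ _) (Real.rpow_nonneg hr.le p))))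
    he0 ((min_le_left _ _).trans_lt (by norm_num)) hr₀
  refine ⟨r, hr, hrr, hle.trans (mul_le_mul_of_nonneg_right ?_ (hpos r hr).le)⟩
  rw [Real.rpow_add he0, Real.rpow_one, mul_comm]
  refine mul_le_mul_of_nonneg_right ?_ he0.le
  calc e ^ γ ≤ (β ^ (1 / γ)) ^ γ := Real.rpow_le_rpow he0.le (min_le_right _ _) hγ.le
    _ = β := by rw [← Real.rpow_mul hβ.le, one_div_mul_cancel hγ.ne', Real.rpow_one]

end Vale.Agent.P084.Smooth
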