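import Vale.Agent.P084.Smooth.Pins

/-!
P084 in infinite dimensions: a map of spheres keeping all the distances `‖t • a - b‖` extends
linearly, and the functionals of the chords from one point almost norm the space.
-/

open Metric

namespace Vale.Agent.P084.Smooth

universe u v

variable {X : Type u} [NormedAddCommGroup X] [NormedSpace ℝ X]
  {Y : Type v} [NormedAddCommGroup Y] [NormedSpace ℝ Y]

/-- `f` keeps all the distances `‖t • a - b‖` up to `η` -/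
def Close (f : sphere (0 : X) 1 ≃ᵢ sphere (0 : Y) 1) (η : ℝ) : Prop :=
  ∀ (x y : sphere (0 : X) 1) (t : ℝ), 0 ≤ t → t ≤ 1 →
    |‖t • (f x : Y) - (f y : Y)‖ - ‖t • (x : X) - (y : X)‖| ≤ η

theorem Close.symm {f : sphere (0 : X) 1 ≃ᵢ sphere (0 : Y) 1} {η : ℝ} (h : Close f.symm η) :
    Close f η := fun x y t h0 h1 => by
  have := h (f x) (f y) t h0 h1
  rw [f.symm_apply_apply, f.symm_apply_apply, abs_sub_comm] at this
  exact this

omit [NormedSpace ℝ X] in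
theorem norm_coe_sphere (x : sphere (0 : X) 1) : ‖(x : X)‖ = 1 := mem_sphere_zero_iff_norm.1 x.2

theorem linear_of_close {f : sphere (0 : X) 1 ≃ᵢ sphere (0 : Y) 1}
    (h : ∀ η, 0 < η → Close f η) :
    ∃ T : X ≃ₗᵢ[ℝ] Y, ∀ x : sphere (0 : X) 1, T x = (f x : Y) := by
  classical
  have heq : ∀ (x y : sphere (0 : X) 1) (t : ℝ), 0 ≤ t → t ≤ 1 →
      ‖t • (f x : Y) - (f y : Y)‖ = ‖t • (x : X) - (y : X)‖ := fun x y t h0 h1 => by
    have := le_of_forall_pos_le_add (a := |‖t • (f x : Y) - (f y : Y)‖ - ‖t • (x : X) - (y : X)‖|)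
      (b := 0) fun η hη => by simpa using h η hη x y t h0 h1
    exact sub_eq_zero.1 (abs_nonpos_iff.1 this)
  set F : X → Y := fun x => if hx : x = 0 then 0 else
    ‖x‖ • (f ⟨‖x‖⁻¹ • x, mem_sphere_zero_iff_norm.2 (norm_smul_inv_norm hx)⟩ : Y) with hF
  have hF0 : F 0 = 0 := dif_pos rfl
  have hFs : ∀ (s : ℝ) (a : sphere (0 : X) 1), 0 ≤ s → F (s • (a : X)) = s • (f a : Y) := by
    intro s a hs
    rcases hs.eq_or_lt with h0 | hs
    · rw [← h0, zero_smul, zero_smul, hF0]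
    · have hn : ‖s • (a : X)‖ = s := by
        rw [norm_smul, Real.norm_of_nonneg hs.le, norm_coe_sphere, mul_one]
      have hne : s • (a : X) ≠ 0 := norm_ne_zero_iff.1 (by rw [hn]; exact hs.ne')
      simp only [hF, dif_neg hne]
      have hpt : (⟨‖s • (a : X)‖⁻¹ • (s • (a : X)),
          mem_sphere_zero_iff_norm.2 (norm_smul_inv_norm hne)⟩ : sphere (0 : X) 1) = a := by
        refine Subtype.ext ?_
        show ‖s • (a : X)‖⁻¹ • s • (a : X) = (a : X)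
        rw [hn, inv_smul_smul₀ hs.ne']
      rw [hpt, hn]
  have hdec : ∀ x : X, x ≠ 0 → ∃ a : sphere (0 : X) 1, x = ‖x‖ • (a : X) := fun x hx =>
    ⟨⟨‖x‖⁻¹ • x, mem_sphere_zero_iff_norm.2 (norm_smul_inv_norm hx)⟩,
      (smul_inv_smul₀ (norm_ne_zero_iff.2 hx) x).symm⟩
  have hnorm : ∀ x, ‖F x‖ = ‖x‖ := by
    intro x
    rcases eq_or_ne x 0 with rfl | hx
    · rw [hF0, norm_zero, norm_zero]
    · obtain ⟨a, ha⟩ := hdec x hx
      nth_rw 1 [ha]
      rw [hFs _ a (norm_nonneg x), norm_smul, norm_coe_sphere, mul_one, norm_norm]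
  have hle : ∀ x y : X, ‖x‖ ≤ ‖y‖ → ‖F x - F y‖ = ‖x - y‖ := by
    intro x y hxy
    rcases eq_or_ne x 0 with rfl | hx
    · rw [hF0, zero_sub, zero_sub, norm_neg, norm_neg, hnorm]
    · obtain ⟨a, ha⟩ := hdec x hx
      have hy : y ≠ 0 := norm_ne_zero_iff.1 (by linarith [norm_pos_iff.2 hx] : (0 : ℝ) < ‖y‖).ne'
      obtain ⟨b, hb⟩ := hdec y hy
      have hyp : 0 < ‖y‖ := norm_pos_iff.2 hy
      have e1 : F x - F y = ‖y‖ • ((‖x‖ / ‖y‖) • (f a : Y) - (f b : Y)) := by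
        conv_lhs => rw [ha, hb]
        rw [hFs _ a (norm_nonneg x), hFs _ b hyp.le, smul_sub, smul_smul,
          mul_div_cancel₀ _ hyp.ne']
      have e2 : x - y = ‖y‖ • ((‖x‖ / ‖y‖) • (a : X) - (b : X)) := by
        rw [smul_sub, smul_smul, mul_div_cancel₀ _ hyp.ne', ← ha, ← hb]
      rw [e1, e2, norm_smul, norm_smul, heq a b _ (by positivity) ((div_le_one hyp).2 hxy)]
  have hiso : Isometry F := Isometry.of_dist_eq fun x y => by
    rw [dist_eq_norm, dist_eq_norm]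
    rcases le_total ‖x‖ ‖y‖ with hxy | hxy
    · exact hle x y hxy
    · rw [norm_sub_rev, hle y x hxy, norm_sub_rev]
  have hsurj : Function.Surjective F := by
    intro y
    rcases eq_or_ne y 0 with rfl | hy
    · exact ⟨0, hF0⟩
    · refine ⟨‖y‖ • (f.symm ⟨‖y‖⁻¹ • y, mem_sphere_zero_iff_norm.2 (norm_smul_inv_norm hy)⟩ : X), ?_⟩
      rw [hFs _ _ (norm_nonneg y), f.apply_symm_apply]
      exact smul_inv_smul₀ (norm_ne_zero_iff.2 hy) y
  set e : X ≃ᵢ Y :=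
    { toEquiv := Equiv.ofBijective F ⟨hiso.injective, hsurj⟩, isometry_toFun := hiso } with he
  refine ⟨e.toRealLinearIsometryEquivOfMapZero hF0, fun x => ?_⟩
  have := hFs 1 x zero_le_one
  rwa [one_smul, one_smul] at this

theorem norming (N : Nice X) : ∀ τ : ℝ, 0 < τ → τ ≤ 1 / 4 → ∃ l : ℝ, 0 < l ∧
    ∀ (z : sphere (0 : X) 1) (V : X), ∃ w : sphere (0 : X) 1,
      l ≤ ‖(z : X) - w‖ ∧ (1 - 4 * τ) * ‖V‖ ≤ |J ((z : X) - w) V| := by
  intro τ hτ hτ4
  obtain ⟨l, hl, hch⟩ := N.chord (τ / 2) (by linarith)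
  refine ⟨l, hl, fun z V => ?_⟩
  have hz := norm_coe_sphere z
  have chordAt : ∀ k : X, ‖k‖ = 1 → τ / 2 ≤ J (z : X) k → ∃ w : sphere (0 : X) 1,
      l ≤ ‖(z : X) - w‖ ∧ J ((z : X) - w) k = 1 := by
    intro k hk hJ
    obtain ⟨T, hlT, hT⟩ := hch z k hz hk hJ
    have hT0 : 0 < T := lt_of_lt_of_le hl hlT
    refine ⟨⟨(z : X) - T • k, mem_sphere_zero_iff_norm.2 hT⟩, ?_, ?_⟩
    · simp only [sub_sub_cancel, norm_smul, Real.norm_of_nonneg hT0.le, hk, mul_one]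
      exact hlT
    · have h := J_self (T • k)
      rw [map_smul, smul_eq_mul, norm_smul, Real.norm_of_nonneg hT0.le, hk] at h
      simp only [sub_sub_cancel]
      exact mul_left_cancel₀ hT0.ne' h
  rcases eq_or_ne V 0 with rfl | hV
  · obtain ⟨w, hw, -⟩ := chordAt z hz (by rw [J_self, hz]; linarith)
    exact ⟨w, hw, by simp⟩
  have hVp : 0 < ‖V‖ := norm_pos_iff.2 hV
  obtain ⟨k, hk1, hVk⟩ : ∃ k : X, ‖k‖ = 1 ∧ V = ‖V‖ • k :=
    ⟨‖V‖⁻¹ • V, norm_smul_inv_norm hV, (smul_inv_smul₀ hVp.ne' V).symm⟩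
  suffices ∃ w : sphere (0 : X) 1, l ≤ ‖(z : X) - w‖ ∧ 1 - 4 * τ ≤ |J ((z : X) - w) k| by
    obtain ⟨w, hw, hb⟩ := this
    refine ⟨w, hw, ?_⟩
    nth_rw 2 [hVk]
    rw [map_smul, smul_eq_mul, abs_mul, abs_of_pos hVp, mul_comm _ ‖V‖]
    exact mul_le_mul_of_nonneg_left hb hVp.le
  by_cases hbig : τ / 2 ≤ |J (z : X) k|
  · rcases le_abs.1 hbig with h | h
    · obtain ⟨w, hw, e⟩ := chordAt k hk1 h
      exact ⟨w, hw, by rw [e, abs_one]; linarith⟩
    · obtain ⟨w, hw, e⟩ := chordAt (-k) (by rwa [norm_neg]) (by rwa [map_neg])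
      rw [map_neg, neg_eq_iff_eq_neg] at e
      exact ⟨w, hw, by rw [e, abs_neg, abs_one]; linarith⟩
  · push Not at hbig
    obtain ⟨k2, hk2⟩ : ∃ k2, k2 = k + (2 * τ) • (z : X) := ⟨_, rfl⟩
    have hJk2 : τ ≤ J (z : X) k2 := by
      rw [hk2, map_add, map_smul, smul_eq_mul, J_self, hz, mul_one]
      linarith [(abs_lt.1 hbig).1]
    have hup : ‖k2‖ ≤ 1 + 2 * τ := by
      rw [hk2]
      refine (norm_add_le _ _).trans ?_
      rw [hk1, norm_smul, hz, mul_one, Real.norm_of_nonneg (by linarith)]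
    have hlow : 1 - 2 * τ ≤ ‖k2‖ := by
      have := norm_sub_le_norm_add k ((2 * τ) • (z : X))
      rwa [hk1, norm_smul, hz, mul_one, Real.norm_of_nonneg (by linarith), ← hk2] at this
    have hn : 0 < ‖k2‖ := by linarith
    obtain ⟨w, hw, e⟩ := chordAt (‖k2‖⁻¹ • k2) (norm_smul_inv_norm (norm_pos_iff.1 hn)) (by
      rw [map_smul, smul_eq_mul, le_inv_mul_iff₀ hn]
      nlinarith)
    refine ⟨w, hw, le_trans ?_ (le_abs_self _)⟩
    have e2 : J ((z : X) - w) k2 = ‖k2‖ := by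
      rw [map_smul, smul_eq_mul, inv_mul_eq_one₀ hn.ne'] at e
      exact e.symm
    have h3 := J_le ((z : X) - w) (z : X)
    rw [hk2, map_add, map_smul, smul_eq_mul, ← hk2] at e2
    rw [hz] at h3
    nlinarith

end Vale.Agent.P084.Smooth
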