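import Vale.Agent.P079.Fip

/-!
P084 in infinite dimensions: limits along a fixed ultrafilter, the asymptotic radius of a sequence,
the asymptotic gain function and norming functionals.
-/

open Filter Topology

namespace Vale.Agent.P084.Smooth

universe u

/-- a fixed free ultrafilter on the natural numbers -/
noncomputable def U0 : Ultrafilter ℕ := Filter.hyperfilter ℕ

/-- the limit of a bounded sequence of reals along `U0` -/
noncomputable def ulim (a : ℕ → ℝ) : ℝ := limUnder (U0 : Filter ℕ) a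

theorem ulim_spec {a : ℕ → ℝ} {lo hi : ℝ} (h : ∀ᶠ n in (U0 : Filter ℕ), a n ∈ Set.Icc lo hi) :
    Tendsto a U0 (𝓝 (ulim a)) := by
  have hm : ((U0.map a : Ultrafilter ℝ) : Filter ℝ) ≤ 𝓟 (Set.Icc lo hi) := by
    rw [le_principal_iff]; exact h
  obtain ⟨l, -, hl⟩ := (isCompact_Icc (a := lo) (b := hi)).ultrafilter_le_nhds _ hm
  exact tendsto_nhds_limUnder ⟨l, hl⟩

theorem ulim_eq {a : ℕ → ℝ} {l : ℝ} (h : Tendsto a U0 (𝓝 l)) : ulim a = l := h.limUnder_eq

theorem ulim_le {a : ℕ → ℝ} {lo r : ℝ} (h0 : ∀ᶠ n in (U0 : Filter ℕ), lo ≤ a n)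
    (h1 : ∀ᶠ n in (U0 : Filter ℕ), a n ≤ r) : ulim a ≤ r :=
  le_of_tendsto (ulim_spec (h0.and h1)) h1

theorem le_ulim {a : ℕ → ℝ} {hi r : ℝ} (h0 : ∀ᶠ n in (U0 : Filter ℕ), a n ≤ hi)
    (h1 : ∀ᶠ n in (U0 : Filter ℕ), r ≤ a n) : r ≤ ulim a :=
  ge_of_tendsto (ulim_spec (h1.and h0)) h1

variable {X : Type u} [NormedAddCommGroup X] [NormedSpace ℝ X]

/-- weak convergence along `U0` -/
def WL (x : ℕ → X) (v : X) : Prop :=
  ∀ φ : StrongDual ℝ X, Tendsto (fun n => φ (x n)) U0 (𝓝 (φ v))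

/-- a bounded sequence -/
def Bdd (x : ℕ → X) : Prop := ∃ M : ℝ, ∀ᶠ n in (U0 : Filter ℕ), ‖x n‖ ≤ M

omit [NormedSpace ℝ X] in
theorem Bdd.tendsto_norm {x : ℕ → X} (h : Bdd x) :
    Tendsto (fun n => ‖x n‖) U0 (𝓝 (ulim fun n => ‖x n‖)) := by
  obtain ⟨M, hM⟩ := h
  exact ulim_spec (lo := 0) (hi := M) (hM.mono fun n hn => ⟨norm_nonneg _, hn⟩)

theorem Bdd.ulim_nonneg {x : ℕ → X} (h : Bdd x) : 0 ≤ ulim fun n => ‖x n‖ :=
  ge_of_tendsto h.tendsto_norm (Eventually.of_forall fun _ => norm_nonneg _)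

omit [NormedSpace ℝ X] in
theorem Bdd.add {x y : ℕ → X} (hx : Bdd x) (hy : Bdd y) : Bdd fun n => x n + y n := by
  obtain ⟨M, hM⟩ := hx
  obtain ⟨N, hN⟩ := hy
  exact ⟨M + N, (hM.and hN).mono fun n hn => norm_add_le_of_le hn.1 hn.2⟩

theorem Bdd.smul {x : ℕ → X} (hx : Bdd x) (c : ℝ) : Bdd fun n => c • x n := by
  obtain ⟨M, hM⟩ := hx
  exact ⟨‖c‖ * M, hM.mono fun n hn => by
    rw [norm_smul]; exact mul_le_mul_of_nonneg_left hn (norm_nonneg _)⟩

omit [NormedSpace ℝ X] in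
theorem bdd_const (v : X) : Bdd fun _ => v := ⟨‖v‖, Eventually.of_forall fun _ => le_rfl⟩

theorem Bdd.sub_const {x : ℕ → X} (hx : Bdd x) (v : X) : Bdd fun n => x n - v := by
  simpa [sub_eq_add_neg] using hx.add (bdd_const (-v))

theorem WL.sub_const {x : ℕ → X} {v : X} (h : WL x v) (w : X) :
    WL (fun n => x n - w) (v - w) := fun φ => by
  simpa [map_sub] using (h φ).sub_const (φ w)

theorem WL.smul {x : ℕ → X} {v : X} (h : WL x v) (c : ℝ) : WL (fun n => c • x n) (c • v) :=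
  fun φ => by simpa using (h φ).const_mul c

theorem WL.congr_tendsto {x y : ℕ → X} {v : X} (h : WL x v)
    (hd : Tendsto (fun n => ‖y n - x n‖) U0 (𝓝 0)) : WL y v := fun φ => by
  have h0 : Tendsto (fun n => φ (y n - x n)) U0 (𝓝 0) :=
    squeeze_zero_norm (fun n => φ.le_opNorm (y n - x n)) (by simpa using hd.const_mul ‖φ‖)
  simpa [map_sub] using h0.add (h φ)

theorem WL.norm_le {x : ℕ → X} {v : X} (hb : Bdd x) (h : WL x v) :
    ‖v‖ ≤ ulim fun n => ‖x n‖ := by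
  obtain ⟨ψ, hψ, hψv⟩ := exists_dual_vector'' ℝ v
  have hv : ψ v = ‖v‖ := by simpa using hψv
  rw [← hv]
  refine le_of_tendsto_of_tendsto' (h ψ) hb.tendsto_norm fun n => ?_
  exact ((le_abs_self _).trans (ψ.le_opNorm _)).trans (mul_le_of_le_one_left (norm_nonneg _) hψ)

theorem exists_wl [CompleteSpace X] [UniformConvexSpace X] {x : ℕ → X} {M : ℝ}
    (h : ∀ n, ‖x n‖ ≤ M) : ∃ v, WL x v := by
  obtain ⟨w, -, hw⟩ := Vale.Agent.P079.exists_wlim
    ((Vale.Agent.P079.fip_of_uniformConvexSpace X).fipOn Metric.isBounded_closedBall)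
    Metric.isClosed_closedBall (convex_closedBall (0 : X) M) U0 (f := x)
    (fun n => by simpa using h n)
  exact ⟨w, hw.tendsto_apply⟩

/-- the asymptotic radius; it is kept by isometries and by translations -/
noncomputable def rad (x : ℕ → X) : ℝ := ulim fun n => ulim fun m => ‖x n - x m‖

/-- the possible gains of the norm at a unit vector along a weakly null sequence of radius `≤ r` -/
def gainSet (X : Type u) [NormedAddCommGroup X] [NormedSpace ℝ X] (r : ℝ) : Set ℝ :=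
  {g | ∃ (z : X) (ν : ℕ → X), ‖z‖ = 1 ∧ Bdd ν ∧ WL ν 0 ∧ rad ν ≤ r ∧
    g = (ulim fun n => ‖z + ν n‖) - 1}

/-- the asymptotic modulus of smoothness, measured with the radius -/
noncomputable def gain (X : Type u) [NormedAddCommGroup X] [NormedSpace ℝ X] (r : ℝ) : ℝ :=
  sSup (gainSet X r)

/-- a chosen norming functional -/
noncomputable def J (x : X) : StrongDual ℝ X := (exists_dual_vector'' ℝ x).choose

theorem J_norm (x : X) : ‖J x‖ ≤ 1 := (exists_dual_vector'' ℝ x).choose_spec.1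

theorem J_self (x : X) : J x x = ‖x‖ := by
  simpa [J] using (exists_dual_vector'' ℝ x).choose_spec.2

theorem J_le (x h : X) : J x h ≤ ‖h‖ :=
  ((le_abs_self _).trans ((J x).le_opNorm h)).trans
    (mul_le_of_le_one_left (norm_nonneg _) (J_norm x))

theorem neg_le_J (x h : X) : -‖h‖ ≤ J x h := by
  have := J_le x (-h)
  rw [map_neg, norm_neg] at this
  linarith

theorem add_J_le (x h : X) : ‖x‖ + J x h ≤ ‖x + h‖ := by
  rw [← J_self x, ← map_add]; exact J_le x _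

/-- uniform smoothness -/
def SmoothU (X : Type u) [NormedAddCommGroup X] [NormedSpace ℝ X] : Prop :=
  ∀ η : ℝ, 0 < η → ∃ t : ℝ, 0 < t ∧ ∀ x h : X, ‖x‖ = 1 → ‖h‖ ≤ t →
    ‖x + h‖ + ‖x - h‖ ≤ 2 + η * ‖h‖

/-- a modulus of smoothness of power type `p` with constant `C` -/
def SmoothP (X : Type u) [NormedAddCommGroup X] [NormedSpace ℝ X] (p C : ℝ) : Prop :=
  ∀ x h : X, ‖x‖ = 1 → ‖x + h‖ + ‖x - h‖ ≤ 2 + C * ‖h‖ ^ p

end Vale.Agent.P084.Smooth
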