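import Vale.Agent.P084.Smooth.Pins

/-!
P084 in infinite dimensions, block A: a surjective isometry of unit spheres carries uniform
convexity and uniform smoothness to the target, and both spaces then have the geometric
properties that the translation argument consumes.
-/

open Filter Topology Metric

namespace Vale.Agent.P084.Smooth

universe u v

section Gen

variable {E : Type u} [NormedAddCommGroup E] [NormedSpace ℝ E]

theorem apply_le_norm {φ : StrongDual ℝ E} (hφ : ‖φ‖ ≤ 1) (h : E) : |φ h| ≤ ‖h‖ := by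
  have h1 := φ.le_opNorm h
  rw [Real.norm_eq_abs] at h1
  exact h1.trans (mul_le_of_le_one_left (norm_nonneg h) hφ)

theorem abs_J_le (x h : E) : |J x h| ≤ ‖h‖ := apply_le_norm (J_norm x) h

theorem smoothU_of_smoothP {p C : ℝ} (hp : 1 < p) (h : SmoothP E p C) : SmoothU E := by
  intro η hη
  have hC : 0 < |C| + 1 := by positivity
  refine ⟨(η / (|C| + 1)) ^ (1 / (p - 1)), by positivity, fun x d hx hd => ?_⟩
  refine (h x d hx).trans (add_le_add le_rfl ?_)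
  by_cases h0 : d = 0
  · simp [h0, Real.zero_rpow (show p ≠ 0 by linarith)]
  have hd0 : 0 < ‖d‖ := norm_pos_iff.mpr h0
  have h1 : ‖d‖ ^ (p - 1) ≤ η / (|C| + 1) := by
    have h2 := Real.rpow_le_rpow hd0.le hd (show 0 ≤ p - 1 by linarith)
    rwa [← Real.rpow_mul (by positivity), one_div_mul_cancel (by linarith), Real.rpow_one] at h2
  have h3 : ‖d‖ ^ p = ‖d‖ ^ (p - 1) * ‖d‖ := by
    rw [← Real.rpow_add_one hd0.ne', sub_add_cancel]
  rw [h3, ← mul_assoc]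
  refine mul_le_mul_of_nonneg_right ?_ hd0.le
  rw [le_div_iff₀ hC] at h1
  nlinarith [le_abs_self C, Real.rpow_nonneg hd0.le (p - 1)]

/-- the norm lies below its linearisation plus a small term -/
theorem upper_gen (hE : SmoothU E) {ε : ℝ} (hε : 0 < ε) :
    ∃ δ : ℝ, 0 < δ ∧ ∀ (x h : E) (φ : StrongDual ℝ E), ‖φ‖ ≤ 1 → φ x = ‖x‖ → ‖h‖ ≤ δ * ‖x‖ →
      ‖x + h‖ ≤ ‖x‖ + φ h + ε * ‖h‖ := by
  obtain ⟨δ, hδ, H⟩ := hE ε hε
  refine ⟨δ, hδ, fun x h φ hφ hφx hh => ?_⟩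
  by_cases hx : x = 0
  · subst hx
    simp only [norm_zero, mul_zero, norm_le_zero_iff] at hh
    simp [hh]
  have hn : 0 < ‖x‖ := norm_pos_iff.mpr hx
  have hi : 0 < ‖x‖⁻¹ := inv_pos.mpr hn
  have hs : ∀ v : E, ‖‖x‖⁻¹ • v‖ = ‖x‖⁻¹ * ‖v‖ := fun v => norm_smul_of_nonneg hi.le v
  have h1 := H (‖x‖⁻¹ • x) (‖x‖⁻¹ • h) (by rw [hs]; field_simp) (by
    rw [hs, inv_mul_le_iff₀ hn]; linarith)
  rw [← smul_add, ← smul_sub, hs, hs, hs, ← mul_add] at h1
  have h2 : ‖x + h‖ + ‖x - h‖ ≤ 2 * ‖x‖ + ε * ‖h‖ := by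
    have := mul_le_mul_of_nonneg_left h1 hn.le
    field_simp at this
    linarith
  have h3 := (le_abs_self _).trans (apply_le_norm hφ (x - h))
  rw [map_sub, hφx] at h3
  linarith

theorem upper (hE : SmoothU E) {ε : ℝ} (hε : 0 < ε) :
    ∃ δ : ℝ, 0 < δ ∧ ∀ x h : E, ‖h‖ ≤ δ * ‖x‖ → ‖x + h‖ ≤ ‖x‖ + J x h + ε * ‖h‖ := by
  obtain ⟨δ, hδ, H⟩ := upper_gen hE hε
  exact ⟨δ, hδ, fun x h hh => H x h (J x) (J_norm x) (J_self x) hh⟩

/-- the norming functional is uniformly continuous away from the origin -/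
theorem J_continuous (hE : SmoothU E) {ε : ℝ} (hε : 0 < ε) :
    ∃ δ : ℝ, 0 < δ ∧ ∀ x y : E, x ≠ 0 → ‖x - y‖ ≤ δ * ‖x‖ → ‖J x - J y‖ ≤ ε := by
  obtain ⟨δ, hδ, H⟩ := upper hE (half_pos hε)
  refine ⟨δ * ε / 4, by positivity, fun x y hx hxy => ?_⟩
  have hn : 0 < ‖x‖ := norm_pos_iff.mpr hx
  have hdef : ‖x‖ - J y x ≤ 2 * (δ * ε / 4 * ‖x‖) := by
    have h1 := J_le y (y - x)
    rw [map_sub, J_self] at h1
    have h2 := norm_le_norm_add_norm_sub' x y
    rw [norm_sub_rev] at h1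
    linarith
  have key : ∀ h : E, J y h - J x h ≤ ε * ‖h‖ := by
    intro h
    by_cases hh : h = 0
    · simp [hh]
    have hhn : 0 < ‖h‖ := norm_pos_iff.mpr hh
    set t : ℝ := δ * ‖x‖ / ‖h‖
    have ht : 0 < t := by positivity
    have hth : ‖t • h‖ = δ * ‖x‖ := by
      rw [norm_smul_of_nonneg ht.le]; exact div_mul_cancel₀ _ hhn.ne'
    have h1 := H x (t • h) hth.le
    have h2 := J_le y (x + t • h)
    rw [map_add] at h2
    rw [map_smul, hth, smul_eq_mul] at h1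
    rw [map_smul, smul_eq_mul] at h2
    have h3 : t * (J y h - J x h) ≤ ε * (δ * ‖x‖) := by nlinarith
    have h4 : ε * (δ * ‖x‖) = t * (ε * ‖h‖) := by simp only [t]; field_simp
    rw [h4] at h3
    exact le_of_mul_le_mul_left h3 ht
  refine ContinuousLinearMap.opNorm_le_bound _ hε.le fun h => ?_
  rw [sub_apply, Real.norm_eq_abs, abs_le]
  have h1 := key h
  have h2 := key (-h)
  rw [map_neg, map_neg, norm_neg] at h2
  exact ⟨by linarith, by linarith⟩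

/-- a chord leaves the sphere transversally -/
theorem chord_pos [UniformConvexSpace E] {l : ℝ} (hl : 0 < l) :
    ∃ c : ℝ, 0 < c ∧ ∀ z w : E, ‖z‖ = 1 → ‖w‖ = 1 → l ≤ ‖z - w‖ → c ≤ J z (z - w) := by
  obtain ⟨δ, hδ, H⟩ := exists_forall_sphere_dist_add_le_two_sub E hl
  refine ⟨δ, hδ, fun z w hz hw hzw => ?_⟩
  have h1 := H hz hw hzw
  have h2 := J_le z (z + w)
  rw [map_add, J_self] at h2
  rw [map_sub, J_self]
  linarith

/-- strict convexity in transversal directions -/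
theorem strict_lower [UniformConvexSpace E] {s : ℝ} (hs : 0 < s) (hs' : s ≤ 1 / 2) :
    ∃ c : ℝ, 0 < c ∧ ∀ y k : E, ‖y‖ = 1 → ‖k‖ = 1 → |J y k| ≤ 1 / 4 →
      1 + s * J y k + c ≤ ‖y + s • k‖ := by
  obtain ⟨δ, hδ, H⟩ := exists_forall_sphere_dist_add_le_two_sub E (show 0 < s / 4 by linarith)
  refine ⟨δ / 2, half_pos hδ, fun y k hy hk hJ => ?_⟩
  have hsk : ‖s • k‖ = s := by rw [norm_smul_of_nonneg hs.le, hk, mul_one]
  set N := ‖y + s • k‖
  have hNlo : 1 / 2 ≤ N := by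
    have := norm_sub_norm_le y (-(s • k))
    rw [sub_neg_eq_add, norm_neg, hy, hsk] at this
    linarith
  have hNhi : N ≤ 3 / 2 := by
    have := norm_add_le y (s • k)
    rw [hy, hsk] at this
    linarith
  have hNp : 0 < N := by linarith
  set z := N⁻¹ • (y + s • k)
  have hz : ‖z‖ = 1 := by
    rw [norm_smul_of_nonneg (inv_nonneg.mpr hNp.le)]; exact inv_mul_cancel₀ hNp.ne'
  have hNz : N • z = y + s • k := smul_inv_smul₀ hNp.ne' _
  have hdist : s / 4 ≤ ‖z - y‖ := by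
    have e : N • (z - y) = (1 - N) • y + s • k := by
      rw [smul_sub, hNz]; module
    have h1 : ‖N • (z - y)‖ = N * ‖z - y‖ := norm_smul_of_nonneg hNp.le _
    rw [e] at h1
    have h2 := abs_J_le y ((1 - N) • y + s • k)
    rw [map_add, map_smul, map_smul, J_self, hy, smul_eq_mul, smul_eq_mul] at h2
    have h3 := norm_sub_norm_le (s • k) (-((1 - N) • y))
    rw [sub_neg_eq_add, norm_neg, hsk, norm_smul, hy, mul_one, Real.norm_eq_abs,
      add_comm (s • k)] at h3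
    have hJ' := abs_le.mp hJ
    have h2' := abs_le.mp h2
    have h5 : |1 - N| ≤ ‖(1 - N) • y + s • k‖ + s / 4 := abs_le.mpr
      ⟨by nlinarith, by nlinarith⟩
    nlinarith [norm_nonneg (z - y)]
  have h6 := H hz hy hdist
  have h7 := J_le y (z + y)
  rw [map_add, J_self, hy] at h7
  have h8 : J y (N • z) = N * J y z := map_smul _ _ _
  rw [hNz, map_add, map_smul, J_self, hy, smul_eq_mul] at h8
  nlinarith

/-- a transversal direction spans a long chord -/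
theorem exists_chord (hE : SmoothU E) {τ : ℝ} (hτ : 0 < τ) :
    ∃ l : ℝ, 0 < l ∧ ∀ z d : E, ‖z‖ = 1 → ‖d‖ = 1 → τ ≤ J z d →
      ∃ L : ℝ, l ≤ L ∧ L ≤ 2 ∧ ‖z - L • d‖ = 1 := by
  obtain ⟨δ, hδ, H⟩ := upper hE (half_pos hτ)
  refine ⟨min δ 1, lt_min hδ one_pos, fun z d hz hd hJ => ?_⟩
  set l := min δ 1
  have hl : 0 < l := lt_min hδ one_pos
  have h1 := H z (-(l • d)) (by
    rw [norm_neg, norm_smul_of_nonneg hl.le, hd, hz, mul_one, mul_one]; exact min_le_left _ _)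
  rw [← sub_eq_add_neg, map_neg, map_smul, norm_neg, norm_smul_of_nonneg hl.le, hd, hz,
    smul_eq_mul] at h1
  have a1 : ‖z - l • d‖ ≤ 1 := by nlinarith
  have a2 : 1 ≤ ‖z - (2 : ℝ) • d‖ := by
    have := norm_sub_norm_le ((2 : ℝ) • d) z
    rw [norm_sub_rev z, norm_smul, hd, hz] at *
    norm_num at this ⊢
    linarith
  have hc : ContinuousOn (fun L : ℝ => ‖z - L • d‖) (Set.Icc l 2) :=
    Continuous.continuousOn (by fun_prop)
  obtain ⟨L, hL, h2⟩ := intermediate_value_Icc ((min_le_right δ 1).trans one_le_two) hc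
    (show (1 : ℝ) ∈ Set.Icc _ _ from ⟨a1, a2⟩)
  exact ⟨L, hL.1, hL.2, h2⟩

/-- the properties of a complete uniformly convex and uniformly smooth space -/
theorem nice [CompleteSpace E] [UniformConvexSpace E] (hE : SmoothU E) : Nice E := by
  refine ⟨fun x M h => exists_wl h, ?_, ?_, ?_, ?_, ?_, ?_⟩
  · intro η hη
    obtain ⟨t, ht, H⟩ := upper hE hη
    exact ⟨t, ht, fun x h _ hh => H x h hh⟩
  · intro η hη
    obtain ⟨ρ, hρ, H⟩ := J_continuous hE hη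
    refine ⟨ρ, hρ, fun x y hx _ hxy h => ?_⟩
    have hb := H x y (norm_ne_zero_iff.mp (by rw [hx]; exact one_ne_zero))
      (by rw [hx, mul_one]; exact hxy)
    calc |J x h - J y h| = ‖(J x - J y) h‖ := by rw [sub_apply, Real.norm_eq_abs]
      _ ≤ ‖J x - J y‖ * ‖h‖ := ContinuousLinearMap.le_opNorm _ _
      _ ≤ η * ‖h‖ := mul_le_mul_of_nonneg_right hb (norm_nonneg h)
  · intro l hl
    obtain ⟨c, hc, H⟩ := chord_pos (E := E) hl
    refine ⟨c / 2, half_pos hc, fun z w hz hw hzw => ?_⟩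
    have hL : 0 < ‖z - w‖ := hl.trans_le hzw
    have hL2 : ‖z - w‖ ≤ 2 := (norm_sub_le z w).trans (by rw [hz, hw]; norm_num)
    rw [map_smul, smul_eq_mul, ← div_eq_inv_mul, le_div_iff₀ hL]
    have h1 := H z w hz hw hzw
    nlinarith
  · obtain ⟨c, hc, H⟩ := strict_lower (E := E) (show (0 : ℝ) < 1 / 6 by norm_num) (by norm_num)
    refine ⟨c, hc, fun x k hx hk hJ τ hτ1 _ => ?_⟩
    have h1 := H x k hx hk (by rw [hJ]; norm_num)
    rw [hJ, mul_zero, add_zero] at h1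
    have hτ : 0 < τ := lt_of_lt_of_le (by norm_num) hτ1
    have e : x + (1 / 6 : ℝ) • k = (1 - 1 / (6 * τ)) • x + (1 / (6 * τ)) • (x + τ • k) := by
      rw [smul_add, smul_smul, show 1 / (6 * τ) * τ = 1 / 6 by field_simp]
      module
    have hu : 1 / (6 * τ) ≤ 1 := by rw [div_le_one (by positivity)]; linarith
    have hu0 : 0 ≤ 1 / (6 * τ) := by positivity
    have h2 := norm_add_le ((1 - 1 / (6 * τ)) • x) ((1 / (6 * τ)) • (x + τ • k))
    rw [← e, norm_smul_of_nonneg (by linarith), norm_smul_of_nonneg hu0, hx] at h2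
    by_contra hcon
    push Not at hcon
    have h3 : 1 / (6 * τ) * ‖x + τ • k‖ ≤ 1 / (6 * τ) * (1 + c) :=
      mul_le_mul_of_nonneg_left hcon.le hu0
    have h4 : c ≤ 1 / (6 * τ) * c := by linarith
    have h5 : 1 ≤ 1 / (6 * τ) := le_of_mul_le_mul_right (by rw [one_mul]; exact h4) hc
    rw [le_div_iff₀ (by positivity)] at h5
    rw [show τ = 1 / 6 by linarith] at hcon
    linarith
  · intro τ hτ
    obtain ⟨l, hl, H⟩ := exists_chord hE hτ
    refine ⟨l, hl, fun z k hz hk hJ => ?_⟩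
    obtain ⟨T, h1, -, h2⟩ := H z k hz hk hJ
    exact ⟨T, h1, h2⟩
  · intro η hη
    obtain ⟨δ, hδ, H⟩ := exists_forall_closed_ball_dist_add_le_two_sub E hη
    refine ⟨δ / 2, half_pos hδ, fun a b ha hb hab => ?_⟩
    by_contra hcon
    push Not at hcon
    linarith [H ha hb hcon.le]

end Gen

section Iso

variable {X : Type u} {Y : Type v} [NormedAddCommGroup X] [NormedSpace ℝ X] [NormedAddCommGroup Y]
  [NormedSpace ℝ Y]

/-- mutually inverse isometries of the unit spheres -/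
structure SIso (f : X → Y) (g : Y → X) : Prop where
  norm_map : ∀ x : X, ‖x‖ = 1 → ‖f x‖ = 1
  norm_inv : ∀ y : Y, ‖y‖ = 1 → ‖g y‖ = 1
  left : ∀ x : X, ‖x‖ = 1 → g (f x) = x
  right : ∀ y : Y, ‖y‖ = 1 → f (g y) = y
  iso : ∀ x x' : X, ‖x‖ = 1 → ‖x'‖ = 1 → ‖f x - f x'‖ = ‖x - x'‖

variable {f : X → Y} {g : Y → X}

omit [NormedSpace ℝ X] [NormedSpace ℝ Y] in
theorem SIso.iso_inv (H : SIso f g) {y y' : Y} (hy : ‖y‖ = 1) (hy' : ‖y'‖ = 1) :
    ‖g y - g y'‖ = ‖y - y'‖ := by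
  rw [← H.iso _ _ (H.norm_inv y hy) (H.norm_inv y' hy'), H.right y hy, H.right y' hy']

omit [NormedSpace ℝ X] [NormedSpace ℝ Y] in
theorem SIso.symm (H : SIso f g) : SIso g f :=
  ⟨H.norm_inv, H.norm_map, H.right, H.left, fun _ _ h h' => H.iso_inv h h'⟩

theorem SIso.odd [StrictConvexSpace ℝ X] (H : SIso f g) {x : X} (hx : ‖x‖ = 1) : f (-x) = -f x := by
  have hn : ‖-f x‖ = 1 := by rw [norm_neg, H.norm_map x hx]
  set x' := g (-f x)
  have hx' : ‖x'‖ = 1 := H.norm_inv _ hn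
  have h2 : ‖x - x'‖ = 2 := by
    rw [← H.iso x x' hx hx', H.right _ hn, sub_neg_eq_add, ← two_smul ℝ, norm_smul,
      H.norm_map x hx]
    norm_num
  have h3 : SameRay ℝ x (-x') := by
    rw [sameRay_iff_norm_add, ← sub_eq_add_neg, h2, norm_neg, hx, hx']; norm_num
  have h4 : x = -x' := (sameRay_iff_of_norm_eq (by rw [norm_neg, hx, hx'])).mp h3
  rw [h4, neg_neg, ← h4, H.right _ hn]

theorem SIso.uniformConvexSpace [UniformConvexSpace X] (H : SIso f g) : UniformConvexSpace Y := by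
  refine ⟨fun ε hε => ?_⟩
  obtain ⟨δ₀, hδ₀, H₀⟩ := exists_forall_sphere_dist_add_le_two_sub X hε
  obtain ⟨δ₁, hδ₁, H₁⟩ := exists_forall_closed_ball_dist_add_le_two_sub X
    (show 0 < δ₀ / 4 by linarith)
  set α := min (1 / 2) (ε * δ₁ / 8)
  have hα : 0 < α := lt_min one_half_pos (by positivity)
  refine ⟨α, hα, fun y₁ hy₁ y₂ hy₂ hd => ?_⟩
  by_contra hcon
  push Not at hcon
  -- the midpoint is nearly on the sphere
  set p : Y := (1 / 2 : ℝ) • (y₁ + y₂)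
  have hp : ‖p‖ = ‖y₁ + y₂‖ / 2 := by
    rw [norm_smul_of_nonneg (by norm_num)]; ring
  have hple : ‖p‖ ≤ 1 := by
    have := norm_add_le y₁ y₂; rw [hy₁, hy₂] at this; linarith
  have hα2 : α ≤ 1 / 2 := min_le_left _ _
  have hplo : 1 - α < ‖p‖ := by linarith
  have hpp : 0 < ‖p‖ := by linarith
  set m := ‖p‖⁻¹ • p
  have hm : ‖m‖ = 1 := by
    rw [norm_smul_of_nonneg (inv_nonneg.mpr hpp.le)]; exact inv_mul_cancel₀ hpp.ne'
  have hmp : ‖m - p‖ ≤ α := by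
    have e : m - p = (1 - ‖p‖) • m := by
      rw [sub_smul, one_smul, show ‖p‖ • m = p from smul_inv_smul₀ hpp.ne' _]
    rw [e, norm_smul_of_nonneg (by linarith), hm, mul_one]; linarith
  set half := ‖y₁ - y₂‖ / 2
  have hhalf : ε / 2 ≤ half := by simp only [half]; linarith
  have hhalf1 : half ≤ 1 := by
    have := norm_sub_le y₁ y₂; rw [hy₁, hy₂] at this; simp only [half]; linarith
  have hp1 : ‖p - y₁‖ = half := by
    rw [show p - y₁ = (1 / 2 : ℝ) • (y₂ - y₁) by simp only [p]; module,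
      norm_smul_of_nonneg (by norm_num), norm_sub_rev]; simp only [half]; ring
  have hp2 : ‖p - y₂‖ = half := by
    rw [show p - y₂ = (1 / 2 : ℝ) • (y₁ - y₂) by simp only [p]; module,
      norm_smul_of_nonneg (by norm_num)]; simp only [half]; ring
  -- pull back
  set R := half + α
  have hR : 0 < R := by linarith
  have hz := H.norm_inv m hm
  have hx₁ := H.norm_inv y₁ hy₁
  have hx₂ := H.norm_inv y₂ hy₂
  have e1 : ‖g m - g y₁‖ ≤ R := by
    rw [H.iso_inv hm hy₁]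
    linarith [norm_sub_le_norm_sub_add_norm_sub m p y₁]
  have e2 : ‖g y₂ - g m‖ ≤ R := by
    rw [norm_sub_rev, H.iso_inv hm hy₂]
    linarith [norm_sub_le_norm_sub_add_norm_sub m p y₂]
  have e3 : ‖g y₂ - g y₁‖ = 2 * half := by
    rw [H.iso_inv hy₂ hy₁, norm_sub_rev]; simp only [half]; ring
  set a := R⁻¹ • (g m - g y₁)
  set b := R⁻¹ • (g y₂ - g m)
  have hRi : 0 ≤ R⁻¹ := inv_nonneg.mpr hR.le
  have ha : ‖a‖ ≤ 1 := by
    rw [norm_smul_of_nonneg hRi, inv_mul_le_iff₀ hR]; linarith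
  have hb : ‖b‖ ≤ 1 := by
    rw [norm_smul_of_nonneg hRi, inv_mul_le_iff₀ hR]; linarith
  have hab : ‖a + b‖ = R⁻¹ * (2 * half) := by
    rw [show a + b = R⁻¹ • (g y₂ - g y₁) by simp only [a, b]; module, norm_smul_of_nonneg hRi, e3]
  have hlt : 2 - δ₁ < ‖a + b‖ := by
    rw [hab, ← div_eq_inv_mul, lt_div_iff₀ hR]
    have : α ≤ ε * δ₁ / 8 := min_le_right _ _
    nlinarith
  have hclose : ‖a - b‖ < δ₀ / 4 := by
    by_contra h; push Not at h; linarith [H₁ ha hb h]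
  have h4 : ‖(2 : ℝ) • g m - (g y₁ + g y₂)‖ ≤ δ₀ / 2 := by
    rw [show (2 : ℝ) • g m - (g y₁ + g y₂) = R • (a - b) by
        simp only [a, b, ← smul_sub, smul_smul, mul_inv_cancel₀ hR.ne', one_smul]; module,
      norm_smul_of_nonneg hR.le]
    have : R ≤ 2 := by linarith
    nlinarith [norm_nonneg (a - b)]
  have h5 := norm_le_norm_add_norm_sub' ((2 : ℝ) • g m) (g y₁ + g y₂)
  rw [norm_smul, hz] at h5
  norm_num at h5
  have h6 := H₀ hx₁ hx₂ (by rwa [H.iso_inv hy₁ hy₂])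
  linarith

/-- in a uniformly smooth space a short chord has a nearly exact midpoint on the sphere -/
theorem exists_flat_mid (hX : SmoothU X) {κ : ℝ} (hκ : 0 < κ) :
    ∃ δ : ℝ, 0 < δ ∧ ∀ x₁ x₂ : X, ‖x₁‖ = 1 → ‖x₂‖ = 1 → ‖x₁ - x₂‖ ≤ δ →
      ∃ m : X, ‖m‖ = 1 ∧ ‖m - x₁‖ ≤ ‖x₁ - x₂‖ / 2 + κ * ‖x₁ - x₂‖ ∧
        ‖m - x₂‖ ≤ ‖x₁ - x₂‖ / 2 + κ * ‖x₁ - x₂‖ := by
  obtain ⟨δ, hδ, H⟩ := hX κ hκ
  refine ⟨min 1 δ, lt_min one_pos hδ, fun x₁ x₂ h₁ h₂ hd => ?_⟩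
  have hd1 : ‖x₁ - x₂‖ ≤ 1 := hd.trans (min_le_left _ _)
  have hd2 : ‖x₁ - x₂‖ ≤ δ := hd.trans (min_le_right _ _)
  set q : X := (1 / 2 : ℝ) • (x₁ + x₂)
  set w : X := (1 / 2 : ℝ) • (x₁ - x₂)
  have hw : ‖w‖ = ‖x₁ - x₂‖ / 2 := by rw [norm_smul_of_nonneg (by norm_num)]; ring
  have hqw : q + w = x₁ := by simp only [q, w]; module
  have hqw' : q - w = x₂ := by simp only [q, w]; module
  have hqlo : 1 - ‖x₁ - x₂‖ / 2 ≤ ‖q‖ := by
    have h3 := norm_add_le q w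
    rw [hqw, h₁, hw] at h3
    linarith
  have hqhi : ‖q‖ ≤ 1 := by
    rw [norm_smul_of_nonneg (by norm_num)]
    have h3 := norm_add_le x₁ x₂
    rw [h₁, h₂] at h3
    linarith
  have hq0 : 0 < ‖q‖ := by linarith
  have hi : 0 ≤ ‖q‖⁻¹ := inv_nonneg.mpr hq0.le
  have hm : ‖‖q‖⁻¹ • q‖ = 1 := by
    rw [norm_smul_of_nonneg hi]; exact inv_mul_cancel₀ hq0.ne'
  have h4 := H _ (‖q‖⁻¹ • w) hm (by
    rw [norm_smul_of_nonneg hi, hw, inv_mul_le_iff₀ hq0]; nlinarith)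
  rw [← smul_add, ← smul_sub, hqw, hqw', norm_smul_of_nonneg hi, norm_smul_of_nonneg hi,
    norm_smul_of_nonneg hi, h₁, h₂, hw] at h4
  have h5 := mul_le_mul_of_nonneg_left h4 hq0.le
  field_simp at h5
  have hmq : ‖‖q‖⁻¹ • q - q‖ = 1 - ‖q‖ := by
    rw [show ‖q‖⁻¹ • q - q = (1 - ‖q‖) • (‖q‖⁻¹ • q) by
      rw [sub_smul, one_smul, smul_inv_smul₀ hq0.ne' q],
      norm_smul_of_nonneg (by linarith), hm, mul_one]
  have hflat : 1 - ‖q‖ ≤ κ * ‖x₁ - x₂‖ := by nlinarith [norm_nonneg (x₁ - x₂)]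
  refine ⟨_, hm, ?_, ?_⟩
  · refine (norm_sub_le_norm_sub_add_norm_sub _ q _).trans ?_
    rw [hmq, show q - x₁ = -w by simp only [q, w]; module, norm_neg, hw]
    linarith
  · refine (norm_sub_le_norm_sub_add_norm_sub _ q _).trans ?_
    rw [hmq, show q - x₂ = w by simp only [q, w]; module, hw]
    linarith

/-- in a uniformly convex space nearly exact midpoints are near the midpoint -/
theorem near_mid [UniformConvexSpace Y] {ε : ℝ} (hε : 0 < ε) :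
    ∃ δ : ℝ, 0 < δ ∧ ∀ (u v m : Y) (r t : ℝ), 0 ≤ r → r ≤ δ * t → ‖v - u‖ ≤ 4 * t →
      ‖m - u‖ ≤ ‖v - u‖ / 2 + r → ‖v - m‖ ≤ ‖v - u‖ / 2 + r →
      ‖(2 : ℝ) • m - (v + u)‖ ≤ ε * t := by
  obtain ⟨δ₁, hδ₁, H₁⟩ := exists_forall_closed_ball_dist_add_le_two_sub Y
    (show 0 < ε / 8 by linarith)
  refine ⟨min 1 (min (ε / 4) (δ₁ * ε / 16)),
    lt_min one_pos (lt_min (by linarith) (by positivity)), ?_⟩
  intro u v m r t hr hrδ ha e1 e2
  have ht0 : 0 ≤ t := by linarith [norm_nonneg (v - u)]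
  have hr1 : r ≤ t := hrδ.trans (mul_le_of_le_one_left ht0 (min_le_left _ _))
  have hr2 : r ≤ ε / 4 * t := hrδ.trans
    (mul_le_mul_of_nonneg_right ((min_le_right _ _).trans (min_le_left _ _)) ht0)
  have hr3 : r ≤ δ₁ * ε / 16 * t := hrδ.trans
    (mul_le_mul_of_nonneg_right ((min_le_right _ _).trans (min_le_right _ _)) ht0)
  have e : (2 : ℝ) • m - (v + u) = (m - u) - (v - m) := by module
  by_cases hsmall : ‖v - u‖ ≤ ε / 4 * t
  · rw [e]
    refine (norm_sub_le _ _).trans ?_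
    linarith [mul_nonneg hε.le ht0]
  push Not at hsmall
  set R := ‖v - u‖ / 2 + r with hRdef
  have hR : 0 < R := by nlinarith
  have hRi : 0 ≤ R⁻¹ := inv_nonneg.mpr hR.le
  have hA : ‖R⁻¹ • (m - u)‖ ≤ 1 := by
    rw [norm_smul_of_nonneg hRi, inv_mul_le_iff₀ hR]; linarith
  have hB : ‖R⁻¹ • (v - m)‖ ≤ 1 := by
    rw [norm_smul_of_nonneg hRi, inv_mul_le_iff₀ hR]; linarith
  have hAB : 2 - δ₁ < ‖R⁻¹ • (m - u) + R⁻¹ • (v - m)‖ := by
    rw [← smul_add, show m - u + (v - m) = v - u by abel, norm_smul_of_nonneg hRi,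
      ← div_eq_inv_mul, lt_div_iff₀ hR, hRdef]
    nlinarith [mul_nonneg hδ₁.le hr]
  have hc : ‖R⁻¹ • (m - u) - R⁻¹ • (v - m)‖ < ε / 8 := by
    by_contra hc; push Not at hc; linarith [H₁ hA hB hc]
  rw [← smul_sub, ← e, norm_smul_of_nonneg hRi, inv_mul_lt_iff₀ hR] at hc
  nlinarith

/-- inverses of numbers near one -/
theorem inv_near_one {N t : ℝ} (hN : |N - 1| ≤ t) (ht : t ≤ 1 / 8) :
    N⁻¹ ≤ 2 - N + 2 * t ^ 2 ∧ |N⁻¹ - 1| ≤ 2 * t := by
  obtain ⟨hN1, hN2⟩ := abs_le.mp hN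
  have hN0 : 0 < N := by linarith
  constructor
  · rw [inv_le_iff_one_le_mul₀ hN0]; nlinarith
  · rw [abs_le]
    constructor
    · rw [le_sub_iff_add_le, ← one_div, le_div_iff₀ hN0]; nlinarith
    · rw [sub_le_iff_le_add, inv_le_iff_one_le_mul₀ hN0]; nlinarith

theorem SIso.smoothU [UniformConvexSpace X] (H : SIso f g) (hX : SmoothU X) : SmoothU Y := by
  have := H.uniformConvexSpace
  intro ε hε
  obtain ⟨δa, hδa, Ha⟩ := near_mid (Y := Y) (show 0 < ε / 4 by linarith)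
  obtain ⟨δb, hδb, Hb⟩ := exists_flat_mid hX (show 0 < δa / 4 by linarith)
  set δ := min (1 / 8) (min (δb / 8) (ε / 64))
  refine ⟨δ, lt_min (by norm_num) (lt_min (by linarith) (by linarith)), fun y h hy hh => ?_⟩
  set t := ‖h‖
  have ht0 : 0 ≤ t := norm_nonneg h
  have ht8 : t ≤ 1 / 8 := hh.trans (min_le_left _ _)
  have htδ : t ≤ δb / 8 := hh.trans ((min_le_right _ _).trans (min_le_left _ _))
  have htε : t ≤ ε / 64 := hh.trans ((min_le_right _ _).trans (min_le_right _ _))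
  set Np := ‖y + h‖
  set Nm := ‖y - h‖
  have hNp : |Np - 1| ≤ t := by
    have h3 := abs_norm_sub_norm_le (y + h) y; rwa [add_sub_cancel_left, hy] at h3
  have hNm : |Nm - 1| ≤ t := by
    have h3 := abs_norm_sub_norm_le (y - h) y; rwa [sub_sub_cancel_left, norm_neg, hy] at h3
  obtain ⟨hNp1, hNp2⟩ := abs_le.mp hNp
  obtain ⟨hNm1, hNm2⟩ := abs_le.mp hNm
  have hp0 : 0 < Np := by linarith
  have hm0 : 0 < Nm := by linarith
  obtain ⟨hp1', hp2'⟩ := inv_near_one hNp ht8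
  obtain ⟨hm1', hm2'⟩ := inv_near_one hNm ht8
  obtain ⟨hp3, hp4⟩ := abs_le.mp hp2'
  obtain ⟨hm3, hm4⟩ := abs_le.mp hm2'
  set yp := Np⁻¹ • (y + h) with hypdef
  set ym := Nm⁻¹ • (y - h) with hymdef
  have hyp : ‖yp‖ = 1 := by
    rw [norm_smul_of_nonneg (inv_nonneg.mpr hp0.le)]; exact inv_mul_cancel₀ hp0.ne'
  have hym : ‖ym‖ = 1 := by
    rw [norm_smul_of_nonneg (inv_nonneg.mpr hm0.le)]; exact inv_mul_cancel₀ hm0.ne'
  have e3 : yp - ym = (Np⁻¹ - Nm⁻¹) • y + (Np⁻¹ + Nm⁻¹) • h := by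
    rw [hypdef, hymdef]; module
  have e4 : yp + ym = (Np⁻¹ + Nm⁻¹) • y + (Np⁻¹ - Nm⁻¹) • h := by
    rw [hypdef, hymdef]; module
  have ha : ‖yp - ym‖ ≤ 8 * t := by
    rw [e3]
    refine (norm_add_le _ _).trans ?_
    rw [norm_smul, norm_smul, hy, mul_one, Real.norm_eq_abs, Real.norm_eq_abs]
    have a1 : |Np⁻¹ - Nm⁻¹| ≤ 4 * t := abs_le.mpr ⟨by linarith, by linarith⟩
    have a2 : |Np⁻¹ + Nm⁻¹| * t ≤ 3 * t :=
      mul_le_mul_of_nonneg_right (abs_le.mpr ⟨by linarith, by linarith⟩) ht0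
    linarith
  have ha' : ‖g yp - g ym‖ = ‖yp - ym‖ := H.iso_inv hyp hym
  by_cases hbig : δb < ‖yp - ym‖
  · linarith
  push Not at hbig
  obtain ⟨m, hm, hm1, hm2⟩ := Hb (g yp) (g ym) (H.norm_inv yp hyp) (H.norm_inv ym hym)
    (ha'.le.trans hbig)
  have f1 := H.iso m _ hm (H.norm_inv yp hyp)
  have f2 := H.iso m _ hm (H.norm_inv ym hym)
  rw [H.right yp hyp] at f1
  rw [H.right ym hym] at f2
  rw [ha', ← f1, norm_sub_rev (f m)] at hm1
  rw [ha', ← f2] at hm2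
  have hnear := Ha ym yp (f m) (δa / 4 * ‖yp - ym‖) (2 * t) (by positivity) (by nlinarith)
    (by linarith) hm2 hm1
  have hsum : 2 - ε / 2 * t ≤ ‖yp + ym‖ := by
    have h3 := norm_le_norm_add_norm_sub' ((2 : ℝ) • f m) (yp + ym)
    rw [norm_smul, H.norm_map m hm] at h3
    norm_num at h3
    linarith
  have hsum' : ‖yp + ym‖ ≤ (Np⁻¹ + Nm⁻¹) + |Np⁻¹ - Nm⁻¹| * t := by
    rw [e4]
    refine (norm_add_le _ _).trans (le_of_eq ?_)
    rw [norm_smul_of_nonneg (by positivity), hy, mul_one, norm_smul, Real.norm_eq_abs]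
  have habs : |Np⁻¹ - Nm⁻¹| * t ≤ 4 * t * t :=
    mul_le_mul_of_nonneg_right (abs_le.mpr ⟨by linarith, by linarith⟩) ht0
  show Np + Nm ≤ 2 + ε * t
  nlinarith

end Iso

theorem geomPin (X : Type u) [NormedAddCommGroup X] [NormedSpace ℝ X] : GeomPin.{u, v} X := by
  classical
  intro Y _ _ _ _ _ p C hp hS f
  let F : X → Y := fun x => if h : x ∈ sphere (0 : X) 1 then (f ⟨x, h⟩ : Y) else 0
  let G : Y → X := fun y => if h : y ∈ sphere (0 : Y) 1 then (f.symm ⟨y, h⟩ : X) else 0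
  have mX : ∀ x : X, ‖x‖ = 1 → x ∈ sphere (0 : X) 1 := fun x => mem_sphere_zero_iff_norm.mpr
  have mY : ∀ y : Y, ‖y‖ = 1 → y ∈ sphere (0 : Y) 1 := fun y => mem_sphere_zero_iff_norm.mpr
  have hF : ∀ x (h : ‖x‖ = 1), F x = (f ⟨x, mX x h⟩ : Y) := fun x h => dif_pos (mX x h)
  have hG : ∀ y (h : ‖y‖ = 1), G y = (f.symm ⟨y, mY y h⟩ : X) := fun y h => dif_pos (mY y h)
  have H : SIso F G := by
    refine ⟨fun x h => ?_, fun y h => ?_, fun x h => ?_, fun y h => ?_, fun x x' h h' => ?_⟩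
    · rw [hF x h]; exact mem_sphere_zero_iff_norm.mp (f _).2
    · rw [hG y h]; exact mem_sphere_zero_iff_norm.mp (f.symm _).2
    · have h1 : ‖F x‖ = 1 := by rw [hF x h]; exact mem_sphere_zero_iff_norm.mp (f _).2
      rw [hG _ h1]
      simp [hF x h]
    · have h1 : ‖G y‖ = 1 := by rw [hG y h]; exact mem_sphere_zero_iff_norm.mp (f.symm _).2
      rw [hF _ h1]
      simp [hG y h]
    · rw [hF x h, hF x' h']
      have h1 := f.isometry.dist_eq ⟨x, mX x h⟩ ⟨x', mX x' h'⟩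
      rwa [Subtype.dist_eq, Subtype.dist_eq, dist_eq_norm, dist_eq_norm] at h1
  have hX := smoothU_of_smoothP hp hS
  have hYc := H.uniformConvexSpace
  refine ⟨hYc, H.smoothU hX, nice hX, nice (H.smoothU hX), fun a b hab => ?_⟩
  have ha : ‖(a : X)‖ = 1 := mem_sphere_zero_iff_norm.mp a.2
  have hb : ‖(b : X)‖ = 1 := mem_sphere_zero_iff_norm.mp b.2
  have h1 := H.odd ha
  rw [← hab, hF _ ha, hF _ hb] at h1
  exact h1

end Vale.Agent.P084.Smooth
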