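import Vale.Agent.P084.Smooth.Near

/-!
P084 in infinite dimensions: alternate translations along a chord.
-/

open Filter Topology Metric

namespace Vale.Agent.P084.Smooth

universe u v

variable {X : Type u} [NormedAddCommGroup X] [NormedSpace ℝ X]
  {Y : Type v} [NormedAddCommGroup Y] [NormedSpace ℝ Y]

theorem J_dir {x : X} (hx : x ≠ 0) : J x (‖x‖⁻¹ • x) = 1 := by
  rw [map_smul, smul_eq_mul, J_self, inv_mul_cancel₀ (norm_ne_zero_iff.2 hx)]

/-- a smooth space has only one norming functional at each point -/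
theorem J_unique (N : Nice X) {x : X} (hx : x ≠ 0) {ψ : StrongDual ℝ X}
    (hψn : ∀ a : X, ψ a ≤ ‖a‖) (hψx : ψ x = ‖x‖) (h : X) : ψ h = J x h := by
  suffices ∀ k : X, ψ k ≤ J x k by
    have h1 := this h
    have h2 := this (-h)
    simp only [map_neg] at h2
    linarith
  intro k
  refine le_of_forall_pos_le_add fun η hη => ?_
  obtain ⟨t, ht, he⟩ := N.expand (η / (‖k‖ + 1)) (by positivity)
  set e := t * ‖x‖ / (‖k‖ + 1) with hedef
  have he0 : 0 < e := by have := norm_pos_iff.2 hx; positivity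
  have hek : ‖e • k‖ = e * ‖k‖ := norm_smul_of_nonneg he0.le _
  have h1 := he x (e • k) hx (by
    rw [hek, hedef, div_mul_eq_mul_div, div_le_iff₀ (by positivity)]
    exact mul_le_mul_of_nonneg_left (by linarith) (by positivity))
  have h2 := hψn (x + e • k)
  rw [map_add, map_smul, smul_eq_mul, hψx] at h2
  rw [map_smul, smul_eq_mul, hek] at h1
  have h3 : η / (‖k‖ + 1) * (e * ‖k‖) ≤ e * η := by
    rw [div_mul_eq_mul_div, div_le_iff₀ (by positivity)]
    nlinarith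
  by_contra hc
  have := mul_lt_mul_of_pos_left (lt_of_not_ge hc) he0
  linarith

theorem J_neg (N : Nice X) {x : X} (hx : x ≠ 0) (h : X) : J (-x) h = -J x h := by
  have h1 := J_unique N hx (ψ := -J (-x))
    (fun a => by simp only [neg_apply]; linarith [neg_le_J (-x) a])
    (by have := J_self (-x); rw [map_neg, norm_neg] at this; simpa using this) h
  simp only [neg_apply] at h1
  linarith

theorem J_pos_smul (N : Nice X) {x : X} (hx : x ≠ 0) {c : ℝ} (hc : 0 < c) (h : X) :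
    J (c • x) h = J x h :=
  J_unique N hx (J_le _) (mul_left_cancel₀ hc.ne' (by
    rw [← smul_eq_mul c, ← map_smul, J_self, norm_smul_of_nonneg hc.le])) h

/-- the two norming functionals of a chord, compared at a state -/
noncomputable def phi {f : sphere (0 : X) 1 ≃ᵢ sphere (0 : Y) 1} {r : ℝ}
    (z w : sphere (0 : X) 1) (st : St f r) : ℝ :=
  J ((f z : Y) - f w) st.u - J ((z : X) - w) st.v

/-- one translation in the source -/
theorem source_step (NX : Nice X) (NY : Nice Y) (GX : GainFacts X) (GY : GainFacts Y)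
    {l : ℝ} (hl : 0 < l) :
    ∃ σ : ℝ, 0 < σ ∧ ∃ A : ℝ, 1 ≤ A ∧ ∀ (f : sphere (0 : X) 1 ≃ᵢ sphere (0 : Y) 1)
      (z w : sphere (0 : X) 1), l ≤ ‖(z : X) - w‖ → ∀ (r G c : ℝ) (st : St f r), 0 ≤ r → r ≤ σ →
        gain X r ≤ G → gain Y r ≤ G → 0 < G → A * (‖st.v - z‖ + G) ≤ σ → 0 ≤ c → c ≤ 1 →
        ∃ st' : St f (c * r), ‖st'.v - w‖ + G ≤ A * (‖st.v - z‖ + G) ∧
          ‖st'.u - (f w : Y)‖ + G ≤ A * (‖st.v - z‖ + G) ∧
          phi z w st ≤ phi z w st' + l / 2 * gain X ((1 - c) * r / (l / 2)) := by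
  obtain ⟨κ₀, hκ₀, htr⟩ := NX.trans l hl
  set κ := min κ₀ 1 with hκ
  have hκ0 : 0 < κ := lt_min hκ₀ one_pos
  obtain ⟨σ₁, hσ₁, hstep⟩ := step NX GX hl hκ0 (min_le_right _ _)
    (fun a b ha hb hab => (min_le_left _ _).trans (htr a b ha hb hab))
  obtain ⟨σ₂, hσ₂, K, hK, hnear⟩ := image_near NY GX GY
  refine ⟨min σ₁ σ₂, lt_min hσ₁ hσ₂, (K + 1) * (2 + 4 / κ), ?_, ?_⟩
  · have : 0 ≤ 4 / κ := by positivity
    nlinarith
  intro f z w hzw r G c st hr hrσ hgX hgY hG hsmall hc hc1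
  simp only [le_min_iff] at hrσ hsmall
  set E := ‖st.v - z‖ with hE
  have hE0 : 0 ≤ E := norm_nonneg _
  have h4 : 0 ≤ 4 / κ := by positivity
  have hEG : E + G ≤ (K + 1) * (2 + 4 / κ) * (E + G) :=
    le_mul_of_one_le_left (by linarith) (by nlinarith)
  obtain ⟨y, s, hy1, hyw, hyr, hyb, hyd⟩ := hstep z w (sph_norm z) (sph_norm w) hzw
    st.x st.v r G c st.x_one st.wx st.hr hr hrσ.1 hgX hG (by linarith) (by linarith) hc hc1
  obtain ⟨st', hx', hv'⟩ := exists_st (f := f) NY hy1 hyw hyr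
  subst hx'
  rw [← hv'] at hyb hyw
  set E₁ := ‖st'.v - w‖
  have hE₁ : E₁ + G ≤ (2 + 4 / κ) * (E + G) := by rw [add_mul, two_mul]; linarith
  have hB : (2 + 4 / κ) * (E + G) ≤ (K + 1) * (2 + 4 / κ) * (E + G) := by
    rw [mul_assoc]; exact le_mul_of_one_le_left (by positivity) (by linarith)
  have hcr : c * r ≤ r := mul_le_of_le_one_left hr hc1
  have hcr0 : 0 ≤ c * r := mul_nonneg hc hr
  have hn := hnear f (c * r) G st' w hcr0 (hcr.trans hrσ.2) ((GX.mono _ _ hcr0 hcr).trans hgX)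
    ((GY.mono _ _ hcr0 hcr).trans hgY) (by linarith) (by linarith)
  refine ⟨st', hE₁.trans hB, ?_, ?_⟩
  · have : K * (E₁ + G) ≤ K * ((2 + 4 / κ) * (E + G)) :=
      mul_le_mul_of_nonneg_left hE₁ (by linarith)
    have : G ≤ (2 + 4 / κ) * (E + G) := by nlinarith
    rw [mul_assoc, add_mul, one_mul]
    linarith
  · set χ := J ((f z : Y) - f w)
    have hzw0 : (z : X) - w ≠ 0 := norm_pos_iff.1 (hl.trans_le hzw)
    have e1 : J ((z : X) - w) st'.v = J ((z : X) - w) st.v - s := by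
      rw [hv', map_sub, map_smul, J_dir hzw0, smul_eq_mul, mul_one]
    have hb : Bdd fun n => st.y n - st'.y n := by
      simpa [sub_eq_add_neg] using
        (bdd_sphere st.y_one).add ((bdd_sphere st'.y_one).smul (-1 : ℝ))
    have e2 : χ (st.u - st'.u) ≤ s + l / 2 * gain X ((1 - c) * r / (l / 2)) := by
      refine le_trans (J_le _ _) ((WL.norm_le hb fun φ => ?_).trans (le_of_eq_of_le ?_ hyd))
      · simpa [map_sub] using (st.wy φ).sub (st'.wy φ)
      · refine ulim_congr ((st.img.and st'.img).mono fun n hn => ?_)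
        obtain ⟨⟨a, ha, ha'⟩, b, hb', hb''⟩ := hn
        simp only [ha, ha', hb', hb'', iso_norm_sub]
    simp only [phi]
    rw [e1]
    rw [map_sub] at e2
    linarith

/-- two translations, back to the first endpoint -/
theorem double_step (NX : Nice X) (NY : Nice Y) (GX : GainFacts X) (GY : GainFacts Y)
    {l : ℝ} (hl : 0 < l) :
    ∃ σ : ℝ, 0 < σ ∧ ∃ A : ℝ, 1 ≤ A ∧ ∀ (f : sphere (0 : X) 1 ≃ᵢ sphere (0 : Y) 1)
      (z w : sphere (0 : X) 1), l ≤ ‖(z : X) - w‖ → ∀ (r G c : ℝ) (st : St f r), 0 ≤ r → r ≤ σ →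
        gain X r ≤ G → gain Y r ≤ G → 0 < G → A * (‖st.v - z‖ + G) ≤ σ → 0 ≤ c → c ≤ 1 →
        ∃ st' : St f (c * (c * r)), ‖st'.v - z‖ + G ≤ A * (‖st.v - z‖ + G) ∧
          phi z w st ≤ phi z w st' + l / 2 * gain X ((1 - c) * r / (l / 2))
            + l / 2 * gain Y ((1 - c) * r / (l / 2)) := by
  obtain ⟨σ₁, hσ₁, A₁, hA₁, h₁⟩ := source_step (l := l) NX NY GX GY hl
  obtain ⟨σ₂, hσ₂, A₂, hA₂, h₂⟩ := source_step (l := l) NY NX GY GX hl
  refine ⟨min σ₁ σ₂, lt_min hσ₁ hσ₂, A₂ * A₁, by nlinarith, ?_⟩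
  intro f z w hzw r G c st hr hrσ hgX hgY hG hsmall hc hc1
  simp only [le_min_iff] at hrσ hsmall
  have hX0 : 0 ≤ A₁ * (‖st.v - z‖ + G) := by positivity
  have hs1 : A₁ * (‖st.v - z‖ + G) ≤ A₂ * A₁ * (‖st.v - z‖ + G) := by
    rw [mul_assoc]; exact le_mul_of_one_le_left hX0 hA₂
  obtain ⟨st₁, hv₁, hu₁, hp₁⟩ := h₁ f z w hzw r G c st hr hrσ.1 hgX hgY hG (by linarith) hc hc1
  have hcr : c * r ≤ r := mul_le_of_le_one_left hr hc1
  have hcr0 : 0 ≤ c * r := mul_nonneg hc hr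
  have hs2 : A₂ * (‖st₁.u - (f w : Y)‖ + G) ≤ A₂ * A₁ * (‖st.v - z‖ + G) := by
    rw [mul_assoc]; exact mul_le_mul_of_nonneg_left hu₁ (by linarith)
  obtain ⟨st₂, hu₂, hv₂, hp₂⟩ := h₂ f.symm (f w) (f z)
    (by rw [iso_norm_sub, norm_sub_rev]; exact hzw) (c * r) G c st₁.swap hcr0 (hcr.trans hrσ.2)
    ((GY.mono _ _ hcr0 hcr).trans hgY) ((GX.mono _ _ hcr0 hcr).trans hgX) hG
    (by show A₂ * (‖st₁.u - (f w : Y)‖ + G) ≤ σ₂; linarith) hc hc1
  obtain ⟨st₃, h3v, h3u⟩ : ∃ st₃ : St f (c * (c * r)), st₃.v = st₂.u ∧ st₃.u = st₂.v :=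
    ⟨st₂.swap, rfl, rfl⟩
  refine ⟨st₃, ?_, ?_⟩
  · have h : ‖st₂.u - (f.symm (f z) : X)‖ + G ≤ A₂ * (‖st₁.u - (f w : Y)‖ + G) := hv₂
    rw [IsometryEquiv.symm_apply_apply] at h
    rw [h3v]
    exact h.trans hs2
  · have hp : phi z w st₁ ≤ phi z w st₃ + l / 2 * gain Y ((1 - c) * (c * r) / (l / 2)) := by
      simp only [phi, St.swap, IsometryEquiv.symm_apply_apply, h3v, h3u] at hp₂ ⊢
      have hX0 : (z : X) - w ≠ 0 := norm_pos_iff.1 (hl.trans_le hzw)
      have hY0 : (f z : Y) - f w ≠ 0 :=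
        norm_pos_iff.1 (by rw [iso_norm_sub]; exact hl.trans_le hzw)
      simp only [← neg_sub (z : X) w, ← neg_sub (f z : Y) (f w : Y), J_neg NX hX0, J_neg NY hY0]
        at hp₂
      linarith
    have : gain Y ((1 - c) * (c * r) / (l / 2)) ≤ gain Y ((1 - c) * r / (l / 2)) := by
      have : 0 ≤ 1 - c := by linarith
      exact GY.mono _ _ (by positivity) (by gcongr)
    have := mul_le_mul_of_nonneg_left this (show 0 ≤ l / 2 by linarith)
    linarith

end Vale.Agent.P084.Smooth
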