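import Vale.Agent.P084.Smooth.Geom
import Vale.Agent.P084.Smooth.Scale
import Vale.Agent.P084.Smooth.Close
import Vale.Agent.P084.Smooth.Upper

/-!
P084 in infinite dimensions: one point where the modulus is attained forces linearity.
-/

open Filter Topology Metric

namespace Vale.Agent.P084.Smooth

universe u v

variable {X : Type u} [NormedAddCommGroup X] [NormedSpace ℝ X]
  {Y : Type v} [NormedAddCommGroup Y] [NormedSpace ℝ Y]

/-- a point with nearly maximal gain carries states displaced in every direction -/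
theorem start (NX : Nice X) (GX : GainFacts X) {M η : ℝ} (hM : 0 ≤ M) (hη : 0 < η)
    (hη1 : η ≤ 1 / 4) :
    ∃ r₀ : ℝ, 0 < r₀ ∧ ∀ r : ℝ, 0 < r → r ≤ r₀ → 0 < gain X r →
      ∃ (z : sphere (0 : X) 1) (δ : ℝ), gain X r / 2 ≤ δ ∧ δ ≤ gain X r ∧
        ∀ h : X, J (z : X) h = -1 → ‖h‖ ≤ M → ∃ (x : ℕ → X) (v : X),
          (∀ᶠ n in (U0 : Filter ℕ), ‖x n‖ = 1) ∧ WL x v ∧ rad x ≤ r ∧
            ‖v - z - δ • h‖ ≤ η * gain X r := by
  set η₁ := η / (8 * (M + 1)) with hη₁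
  have hη₁0 : 0 < η₁ := by positivity
  obtain ⟨t, ht, hexp⟩ := NX.expand η₁ hη₁0
  obtain ⟨ρ, hρ, hj⟩ := NX.jcont η₁ hη₁0
  refine ⟨min (1 / 8) (min (ρ / 4) (min (t / (4 * (M + 1))) (1 / (4 * (M + 1))))), by positivity,
    fun r hr hr₀ hpos => ?_⟩
  simp only [le_min_iff] at hr₀
  obtain ⟨hr1, hr2, hr3, hr4⟩ := hr₀
  rw [le_div_iff₀ (by positivity)] at hr3 hr4
  obtain ⟨z, ν, hz, hνb, hν0, hνr, hgain⟩ := GX.near r hr hpos (7 / 8) (by norm_num)
  set G := gain X r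
  have hGr : G ≤ r := GX.le_self r hr.le
  set τ := η / 2 * G with hτ
  have hτ0 : 0 ≤ τ := by positivity
  have hτ1 : τ ≤ 1 / 64 := (mul_le_mul (by linarith) (hGr.trans hr1) hpos.le (by norm_num)).trans
    (by norm_num : (1 / 8 : ℝ) * (1 / 8) ≤ 1 / 64)
  set ν' := fun n => (1 - τ) • ν n with hν'
  have hν'b : Bdd ν' := hνb.smul _
  have hν'0 : WL ν' 0 := by simpa using hν0.smul (1 - τ)
  have hν'r : rad ν' ≤ r := by
    refine (rad_le_of hνb hν'b (e := fun _ => 0) tendsto_const_nhds (show 0 ≤ 1 - τ by linarith) hνr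
      (Eventually.of_forall fun n => Eventually.of_forall fun m => ?_)).trans
      (mul_le_of_le_one_left hr.le (by linarith))
    rw [hν', ← smul_sub, norm_smul_of_nonneg (by linarith)]; linarith
  have hNb : Bdd fun n => z + ν' n := (bdd_const z).add hν'b
  set δ := (ulim fun n => ‖z + ν' n‖) - 1 with hδ
  have hνl : (ulim fun n => ‖ν n‖) ≤ r := by
    simpa using (GX.norm_le_rad ν 0 hνb hν0).trans hνr
  have hνev : ∀ᶠ n in (U0 : Filter ℕ), ‖ν n‖ ≤ 2 * r :=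
    hνb.tendsto_norm.eventually_le_const (by linarith)
  have hδlo : G / 2 ≤ δ := by
    have h1 : (ulim fun n => ‖z + ν n‖) ≤ (ulim fun n => ‖z + ν' n‖) + τ * ulim fun n => ‖ν n‖ := by
      refine le_of_tendsto_of_tendsto' ((bdd_const z).add hνb).tendsto_norm
        (hNb.tendsto_norm.add (hνb.tendsto_norm.const_mul τ)) fun n => ?_
      calc ‖z + ν n‖ = ‖(z + ν' n) + τ • ν n‖ := by simp only [hν']; congr 1; module
        _ ≤ _ := (norm_add_le _ _).trans (by rw [norm_smul_of_nonneg hτ0])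
    have h2 := mul_le_mul_of_nonneg_left hνl hτ0
    have h3 : τ * r ≤ G / 8 := by
      have : η * r ≤ 1 / 4 := (mul_le_mul hη1 hr1 hr.le (by norm_num)).trans (by norm_num)
      rw [hτ]; nlinarith
    rw [hδ]; linarith
  have hδhi : δ ≤ G := by
    have h := GX.upper z ν' r 1 hν'b hν'0 hν'r one_pos hz.ge
    rw [hz, one_mul, div_one] at h
    rw [hδ]; linarith
  have hδ0 : 0 ≤ δ := by linarith
  refine ⟨⟨z, mem_sphere_zero_iff_norm.2 hz⟩, δ, hδlo, hδhi, fun h hJ hh => ?_⟩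
  change J z h = -1 at hJ
  set p := fun n => z + ν' n + δ • h with hp
  have hpb : Bdd p := hNb.add (bdd_const _)
  set P := ulim fun n => ‖p n‖ with hP
  have hptt : Tendsto (fun n => ‖p n‖) U0 (𝓝 P) := hpb.tendsto_norm
  have hδh : ‖δ • h‖ ≤ G * M := by
    rw [norm_smul_of_nonneg hδ0]; exact mul_le_mul hδhi hh (norm_nonneg _) hpos.le
  have hGM : G * M ≤ r * (M + 1) := mul_le_mul hGr (by linarith) hM hr.le
  have hdev : ∀ᶠ n in (U0 : Filter ℕ), |‖p n‖ - (‖z + ν' n‖ - δ)| ≤ η / 4 * G := by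
    filter_upwards [hνev] with n hn
    set x := z + ν' n with hx
    have hν'n : ‖ν' n‖ ≤ 2 * r := by
      simp only [hν']; rw [norm_smul_of_nonneg (by linarith)]
      exact (mul_le_of_le_one_left (norm_nonneg _) (by linarith)).trans hn
    have hNn : |‖x‖ - 1| ≤ 2 * r := by
      have := abs_norm_sub_norm_le x z
      rw [hz, show x - z = ν' n by rw [hx]; abel] at this; linarith
    rw [abs_le] at hNn
    have hx0 : x ≠ 0 := norm_pos_iff.1 (by linarith)
    have hu : ‖‖x‖⁻¹ • x‖ = 1 := norm_smul_inv_norm hx0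
    have hclose : ‖‖x‖⁻¹ • x - z‖ ≤ ρ := by
      have e : ‖‖x‖⁻¹ • x - x‖ = |1 - ‖x‖| := by
        have hp0 := norm_pos_iff.2 hx0
        rw [show ‖x‖⁻¹ • x - x = (‖x‖⁻¹ - 1) • x by module, norm_smul, Real.norm_eq_abs]
        conv_lhs => arg 2; rw [← abs_of_pos hp0]
        rw [← abs_mul, sub_mul, inv_mul_cancel₀ hp0.ne', one_mul]
      have h1 := norm_add_le (‖x‖⁻¹ • x - x) (ν' n)
      rw [show ‖x‖⁻¹ • x - x + ν' n = ‖x‖⁻¹ • x - z by rw [hx]; abel, e] at h1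
      have : |1 - ‖x‖| ≤ 2 * r := abs_le.2 ⟨by linarith, by linarith⟩
      linarith
    have hJx : |J x h + 1| ≤ η₁ * M := by
      have h1 := hj _ z hu hz hclose h
      rw [J_pos_smul NX hx0 (inv_pos.2 (norm_pos_iff.2 hx0)), hJ, sub_neg_eq_add] at h1
      exact h1.trans (mul_le_mul_of_nonneg_left hh hη₁0.le)
    have hup := hexp x (δ • h) hx0 (by
      have : t * (1 / 2) ≤ t * ‖x‖ := mul_le_mul_of_nonneg_left (by linarith) ht.le
      linarith)
    have hlo := add_J_le x (δ • h)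
    rw [map_smul, smul_eq_mul] at hup hlo
    have hb : δ * (η₁ * M) ≤ η / 8 * G := by
      have h1 : η₁ * M ≤ η / 8 := by
        rw [hη₁, div_mul_eq_mul_div, div_le_iff₀ (by positivity)]; nlinarith
      have := mul_le_mul hδhi h1 (by positivity) hpos.le
      linarith
    have hd : η₁ * ‖δ • h‖ ≤ δ * (η₁ * M) := by
      rw [norm_smul_of_nonneg hδ0, mul_left_comm]
      exact mul_le_mul_of_nonneg_left (mul_le_mul_of_nonneg_left hh hη₁0.le) hδ0
    have hcross : |δ * J x h + δ| ≤ δ * (η₁ * M) := by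
      rw [show δ * J x h + δ = δ * (J x h + 1) by ring, abs_mul, abs_of_nonneg hδ0]
      exact mul_le_mul_of_nonneg_left hJx hδ0
    rw [abs_le] at hcross ⊢
    constructor <;> simp only [hp, ← hx] <;> linarith
  have hP1 : |P - 1| ≤ η / 4 * G := by
    have h1 : Tendsto (fun n => |‖p n‖ - (‖z + ν' n‖ - δ)|) U0
        (𝓝 |P - ((ulim fun n => ‖z + ν' n‖) - δ)|) :=
      (hptt.sub (hNb.tendsto_norm.sub_const δ)).abs
    rw [hδ, sub_sub_cancel] at h1
    exact le_of_tendsto h1 hdev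
  rw [abs_le] at hP1
  have hτh : η / 4 * G = τ / 2 := by rw [hτ]; ring
  have hP0 : 0 < P := by linarith
  have he : Tendsto (fun n => |‖p n‖⁻¹ - P⁻¹| * ‖p n‖) U0 (𝓝 0) := by
    simpa using (((hptt.inv₀ hP0.ne').sub_const P⁻¹).abs).mul hptt
  have hx1 : ∀ᶠ n in (U0 : Filter ℕ), ‖‖p n‖⁻¹ • p n‖ = 1 :=
    (hptt.eventually_const_lt hP0).mono fun n hn => norm_smul_inv_norm (norm_pos_iff.1 hn)
  refine ⟨fun n => ‖p n‖⁻¹ • p n, P⁻¹ • (z + δ • h), hx1, ?_, ?_, ?_⟩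
  · have hw : WL p (z + δ • h) := fun φ => by
      simpa [hp, add_assoc, add_comm, add_left_comm] using
        ((hν'0 φ).const_add (φ z)).add_const (φ (δ • h))
    refine (hw.smul P⁻¹).congr_tendsto (he.congr fun n => ?_)
    rw [← sub_smul, norm_smul, Real.norm_eq_abs]
  · refine (rad_le_of hνb (bdd_sphere hx1) he (show 0 ≤ P⁻¹ * (1 - τ) by
      have : 0 ≤ 1 - τ := by linarith
      positivity) hνr (Eventually.of_forall fun n => Eventually.of_forall fun m => ?_)).trans ?_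
    · rw [show ‖p n‖⁻¹ • p n - ‖p m‖⁻¹ • p m = (‖p n‖⁻¹ - P⁻¹) • p n
        - (‖p m‖⁻¹ - P⁻¹) • p m + (P⁻¹ * (1 - τ)) • (ν n - ν m) by
          simp only [hp, hν']; module]
      refine (norm_add_le _ _).trans (add_le_add ((norm_sub_le _ _).trans ?_) ?_)
      · rw [norm_smul, norm_smul, Real.norm_eq_abs, Real.norm_eq_abs]
      · rw [norm_smul, Real.norm_eq_abs, abs_of_nonneg]
        have : 0 ≤ 1 - τ := by linarith
        positivity
    · refine mul_le_of_le_one_left hr.le ?_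
      rw [inv_mul_le_iff₀ hP0]; linarith
  · change ‖P⁻¹ • (z + δ • h) - z - δ • h‖ ≤ η * G
    rw [show P⁻¹ • (z + δ • h) - z - δ • h = (P⁻¹ - 1) • (z + δ • h) by module, norm_smul,
      Real.norm_eq_abs]
    have h1 : |P⁻¹ - 1| ≤ η / 2 * G := by
      rw [show P⁻¹ - 1 = (1 - P) * P⁻¹ by field_simp, abs_mul, abs_inv, abs_of_pos hP0,
        ← div_eq_mul_inv, div_le_iff₀ hP0]
      have : |1 - P| ≤ η / 4 * G := abs_le.2 ⟨by linarith, by linarith⟩
      nlinarith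
    have h2 : ‖z + δ • h‖ ≤ 2 := (norm_add_le _ _).trans (by rw [hz]; linarith)
    exact (mul_le_mul h1 h2 (norm_nonneg _) (by positivity)).trans (le_of_eq (by ring))

/-- a vector that nearly norms a chord, with nearly the same length, is the chord -/
theorem pin_chord (NY : Nice Y) {η l : ℝ} (hη : 0 < η) (hl : 0 < l) :
    ∃ ω : ℝ, 0 < ω ∧ ω ≤ η ∧ ∃ τ : ℝ, 0 < τ ∧ τ ≤ 1 / 16 ∧ ∀ m V : Y, l ≤ ‖m‖ → ‖m‖ ≤ 2 →
      ‖m‖ - ω ≤ J m V → (1 - 4 * τ) * ‖V‖ ≤ ‖m‖ + ω → ‖V - m‖ ≤ η := by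
  obtain ⟨δ, hδ, hconv⟩ := NY.conv (η / 4) (by positivity)
  set δ' := min δ 1 with hδ'
  have hd0 : 0 < δ' := lt_min hδ one_pos
  refine ⟨min η (min (l * δ' / 8) (1 / 2)), by positivity, min_le_left _ _, δ' / 32,
    by positivity, by linarith [min_le_right δ 1], fun m V hml hm2 hJ hV => ?_⟩
  set ω := min η (min (l * δ' / 8) (1 / 2))
  have hω : ω ≤ l * δ' / 8 := (min_le_right _ _).trans (min_le_left _ _)
  have hω2 : ω ≤ 1 / 2 := (min_le_right _ _).trans (min_le_right _ _)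
  have hd1 : δ' ≤ 1 := min_le_right _ _
  set L := ‖m‖ with hL
  have hL0 : 0 < L := hl.trans_le hml
  set L' := max ‖V‖ L with hL'
  have hL'0 : 0 < L' := hL0.trans_le (le_max_right _ _)
  have hL'1 : (1 - δ' / 8) * L' ≤ L + ω := by
    rcases max_choice ‖V‖ L with h | h
    · rw [hL', h]; linarith
    · rw [hL', h]
      have : 0 ≤ δ' / 8 * L := by positivity
      have : 0 ≤ ω := le_trans (abs_nonneg (0 : ℝ)) (by simp only [abs_zero]; positivity)
      linarith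
  have hle : ∀ a : Y, ‖a‖ ≤ L' → ‖L'⁻¹ • a‖ ≤ 1 := fun a ha => by
    rw [norm_smul_of_nonneg (by positivity), inv_mul_le_iff₀ hL'0, mul_one]; exact ha
  have h := hconv _ _ (hle V (le_max_left _ _)) (hle m (le_max_right _ _)) (by
    rw [← smul_add, norm_smul_of_nonneg (by positivity), le_inv_mul_iff₀ hL'0]
    have h1 := J_le m (V + m)
    rw [map_add, J_self, ← hL] at h1
    have hL'4 : L' ≤ 4 := by nlinarith
    have hLl : l * δ' ≤ L * δ' := mul_le_mul_of_nonneg_right hml hd0.le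
    have : δ' * L ≤ δ' * L' := mul_le_mul_of_nonneg_left (le_max_right _ _) hd0.le
    have : 0 ≤ δ' * L' := by positivity
    have : δ' * L' ≤ δ * L' := mul_le_mul_of_nonneg_right (min_le_left _ _) hL'0.le
    linarith)
  rw [← smul_sub, norm_smul_of_nonneg (by positivity), inv_mul_le_iff₀ hL'0] at h
  have hL'4 : L' ≤ 4 := by nlinarith
  exact h.trans ((mul_le_mul_of_nonneg_right hL'4 (by positivity)).trans_eq (by ring))

/-- tests by norming chords at one point control all differences -/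
theorem close_of_tests {f : sphere (0 : X) 1 ≃ᵢ sphere (0 : Y) 1}
    (hodd : ∀ a b : sphere (0 : X) 1, (b : X) = -(a : X) → (f b : Y) = -(f a : Y))
    (z : sphere (0 : X) 1) {τ l ζ η : ℝ} (hτ : 0 ≤ τ) (hη : 3 * ζ + 8 * τ ≤ η) (hζ : 0 ≤ ζ)
    (hY : ∀ V : Y, ∃ w : sphere (0 : X) 1, l ≤ ‖(z : X) - w‖ ∧
      (1 - 4 * τ) * ‖V‖ ≤ |J ((f z : Y) - f w) V|)
    (hX : ∀ V : X, ∃ w : sphere (0 : X) 1, l ≤ ‖(z : X) - w‖ ∧
      (1 - 4 * τ) * ‖V‖ ≤ |J ((z : X) - w) V|)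
    (htest : ∀ w : sphere (0 : X) 1, l ≤ ‖(z : X) - w‖ → ∀ y : sphere (0 : X) 1,
      |J ((f z : Y) - f w) ((f y : Y) - f z) - J ((z : X) - w) ((y : X) - z)| ≤ ζ) :
    Close f η := by
  intro x y t ht0 ht1
  obtain ⟨zn, hzn⟩ : ∃ zn : sphere (0 : X) 1, (zn : X) = -(z : X) :=
    ⟨⟨-(z : X), by simp [sph_norm z]⟩, rfl⟩
  have hzn' := hodd z zn hzn
  set VX := t • (x : X) - (y : X) with hVX
  set VY := t • (f x : Y) - (f y : Y) with hVY
  have key : ∀ w : sphere (0 : X) 1, l ≤ ‖(z : X) - w‖ →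
      |J ((f z : Y) - f w) VY - J ((z : X) - w) VX| ≤ 3 * ζ := by
    intro w hw
    have h1 := htest w hw x
    have h2 := htest w hw y
    have h3 := htest w hw zn
    have eX : VX = t • ((x : X) - z) - ((y : X) - z) + ((1 - t) / 2) • ((zn : X) - z) := by
      rw [hVX, hzn]; module
    have eY : VY = t • ((f x : Y) - f z) - ((f y : Y) - f z)
        + ((1 - t) / 2) • ((f zn : Y) - f z) := by
      rw [hVY, hzn']; module
    rw [eX, eY]
    simp only [map_add, map_sub, map_smul, smul_eq_mul] at h1 h2 h3 ⊢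
    rw [abs_le] at h1 h2 h3 ⊢
    have a1 := mul_le_mul_of_nonneg_left h1.1 ht0
    have a2 := mul_le_mul_of_nonneg_left h1.2 ht0
    have a3 := mul_le_mul_of_nonneg_left h3.1 (show 0 ≤ (1 - t) / 2 by linarith)
    have a4 := mul_le_mul_of_nonneg_left h3.2 (show 0 ≤ (1 - t) / 2 by linarith)
    have : t * ζ ≤ ζ := mul_le_of_le_one_left hζ ht1
    have : 0 ≤ t * ζ := mul_nonneg ht0 hζ
    constructor <;> linarith
  have hbY : ‖VY‖ ≤ 2 := (norm_sub_le _ _).trans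
    (by rw [norm_smul_of_nonneg ht0, sph_norm, sph_norm]; linarith)
  have hbX : ‖VX‖ ≤ 2 := (norm_sub_le _ _).trans
    (by rw [norm_smul_of_nonneg ht0, sph_norm, sph_norm]; linarith)
  have hbY' : 4 * τ * ‖VY‖ ≤ 4 * τ * 2 := mul_le_mul_of_nonneg_left hbY (by linarith)
  have hbX' : 4 * τ * ‖VX‖ ≤ 4 * τ * 2 := mul_le_mul_of_nonneg_left hbX (by linarith)
  obtain ⟨w1, hw1, hn1⟩ := hY VY
  obtain ⟨w2, hw2, hn2⟩ := hX VX
  have k1 := key w1 hw1
  have k2 := key w2 hw2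
  have j1 : |J ((z : X) - w1) VX| ≤ ‖VX‖ := abs_le.2 ⟨neg_le_J _ _, J_le _ _⟩
  have j2 : |J ((f z : Y) - f w2) VY| ≤ ‖VY‖ := abs_le.2 ⟨neg_le_J _ _, J_le _ _⟩
  have t1 := abs_sub_abs_le_abs_sub (J ((f z : Y) - f w1) VY) (J ((z : X) - w1) VX)
  have t2 := abs_sub_abs_le_abs_sub (J ((z : X) - w2) VX) (J ((f z : Y) - f w2) VY)
  rw [abs_sub_comm] at k2
  rw [abs_le]
  constructor <;> linarith

/-- at a scale where the modulus drops and is attained in the source, `f` is nearly linear -/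
theorem core (NX : Nice X) (NY : Nice Y) (GX : GainFacts X) (GY : GainFacts Y)
    (f : sphere (0 : X) 1 ≃ᵢ sphere (0 : Y) 1)
    (hodd : ∀ a b : sphere (0 : X) 1, (b : X) = -(a : X) → (f b : Y) = -(f a : Y))
    {η : ℝ} (hη : 0 < η) :
    ∃ β : ℝ, 0 < β ∧ ∀ e : ℝ, 0 < e → e ≤ 1 / 2 → ∃ r₀ : ℝ, 0 < r₀ ∧ ∀ r : ℝ, 0 < r → r ≤ r₀ →
      gain Y r ≤ gain X r → 0 < gain X r → gain X (e * r) ≤ β * e * gain X r →
        gain Y (e * r) ≤ β * e * gain X r → Close f η := by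
  set η₃ := min (η / 16) (1 / 8) with hη₃
  have h30 : 0 < η₃ := by positivity
  obtain ⟨κ, hκ, htr⟩ := NX.trans η₃ h30
  obtain ⟨ω, hω, hωη, τ, hτ, hτ1, hpin⟩ := pin_chord NY (η := η₃) h30 h30
  set τn := min τ η₃ with hτn
  have hτn0 : 0 < τn := lt_min hτ h30
  obtain ⟨lY, hlY, hnY⟩ := norming NY τn hτn0 ((min_le_left _ _).trans (by linarith))
  obtain ⟨lX, hlX, hnX⟩ := norming NX τn hτn0 ((min_le_left _ _).trans (by linarith))
  set l := min (min η₃ 1) (min lX lY) with hl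
  have hl0 : 0 < l := lt_min (lt_min h30 one_pos) (lt_min hlX hlY)
  have hl1 : l ≤ 1 := (min_le_left _ _).trans (min_le_right _ _)
  have hlη : l ≤ η₃ := (min_le_left _ _).trans (min_le_left _ _)
  set M := 2 / (η₃ * κ) with hM
  have hM0 : 0 ≤ M := by positivity
  set ηu := min (ω / 8) (1 / 4) with hηu
  have hu0 : 0 < ηu := lt_min (by positivity) (by norm_num)
  obtain ⟨σ, hσ, K, hK, hnear⟩ := image_near (X := X) (Y := Y) NY GX GY
  obtain ⟨β₁, hβ₁, hup₁⟩ := chord_upper NX NY GX GY hl0 hl1 hu0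
  obtain ⟨β₂, hβ₂, hup₂⟩ := chord_upper NY NX GY GX hl0 hl1 hu0
  refine ⟨min β₁ β₂, lt_min hβ₁ hβ₂, fun e he he1 => ?_⟩
  obtain ⟨r₁, hr₁, hu1⟩ := hup₁ e he he1 (M + 1) (by linarith)
  obtain ⟨r₂, hr₂, hu2⟩ := hup₂ e he he1 (K * (M + 2)) (by positivity)
  obtain ⟨r₃, hr₃, hst⟩ := start NX GX hM0 hu0 (min_le_right _ _)
  refine ⟨min (min r₁ r₂) (min r₃ (σ / (M + 1))), by positivity,
    fun r hr hr₀ hside hpos heX heY => ?_⟩
  simp only [le_min_iff] at hr₀
  obtain ⟨⟨hra, hrb⟩, hrc, hrd⟩ := hr₀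
  rw [le_div_iff₀ (by positivity)] at hrd
  obtain ⟨z, δ, hδlo, hδhi, hstates⟩ := hst r hr hrc hpos
  set G := gain X r
  have hGr : G ≤ r := GX.le_self r hr.le
  have hrσ : r ≤ σ := (le_mul_of_one_le_right hr.le (by linarith)).trans hrd
  have hb1 : ∀ g : ℝ, g ≤ min β₁ β₂ * e * G → g ≤ β₁ * e * G ∧ g ≤ β₂ * e * G := fun g hg =>
    ⟨hg.trans (by gcongr; exact min_le_left _ _), hg.trans (by gcongr; exact min_le_right _ _)⟩
  have hδ0 : 0 < δ := by linarith
  -- one vector for each admissible direction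
  have hU : ∀ h : X, J (z : X) h = -1 → ‖h‖ ≤ M → ∃ U : Y, ∀ w : sphere (0 : X) 1,
      l ≤ ‖(z : X) - w‖ → |J ((f z : Y) - f w) U - J ((z : X) - w) h| ≤ ω / 2 := by
    intro h hJ hh
    obtain ⟨x, v, hx, hv, hr', hvz⟩ := hstates h hJ hh
    obtain ⟨st, -, hstv⟩ := exists_st (f := f) NY hx hv hr'
    rw [← hstv] at hvz
    refine ⟨δ⁻¹ • (st.u - (f z : Y)), fun w hw => ?_⟩
    set a := st.v - (z : X) with ha
    have hE : ‖a‖ ≤ (M + 1) * G := by
      have h1 := norm_add_le (a - δ • h) (δ • h)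
      rw [sub_add_cancel, norm_smul_of_nonneg hδ0.le] at h1
      have h2 : δ * ‖h‖ ≤ G * M := mul_le_mul hδhi hh (norm_nonneg _) hpos.le
      have h3 : ηu * G ≤ 1 * G :=
        mul_le_mul_of_nonneg_right ((min_le_right _ _).trans (by norm_num)) hpos.le
      linarith
    have hEr : (M + 1) * G ≤ (M + 1) * r := mul_le_mul_of_nonneg_left hGr (by linarith)
    have hu := hnear f r G st z hr.le hrσ le_rfl hside (hGr.trans hrσ) (by linarith)
    have hu' : ‖st.u - (f z : Y)‖ ≤ K * (M + 2) * G := by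
      refine hu.trans ?_
      rw [mul_assoc]
      exact mul_le_mul_of_nonneg_left (by linarith) (by linarith)
    have u1 := hu1 f z w hw r G st hr hra le_rfl hside hpos hGr (hb1 _ heX).1 (hb1 _ heY).1 hE
    have u2 := hu2 f.symm (f z) (f w) (by rw [iso_norm_sub]; exact hw) r G st.swap hr hrb hside
      le_rfl hpos hGr (hb1 _ heY).2 (hb1 _ heX).2 hu'
    simp only [St.swap, IsometryEquiv.symm_apply_apply] at u2
    set ψ := J ((f z : Y) - f w)
    set φ := J ((z : X) - w)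
    have h4 : |φ (a - δ • h)| ≤ ηu * G :=
      (abs_le.2 ⟨neg_le_J _ _, J_le _ _⟩ : |φ (a - δ • h)| ≤ ‖a - δ • h‖).trans hvz
    rw [map_sub φ a (δ • h), map_smul, smul_eq_mul, abs_le] at h4
    have h5 : |ψ (st.u - (f z : Y)) - δ * φ h| ≤ 2 * ηu * G :=
      abs_le.2 ⟨by linarith, by linarith⟩
    rw [map_smul, smul_eq_mul, show δ⁻¹ * ψ (st.u - (f z : Y)) - φ h
      = δ⁻¹ * (ψ (st.u - (f z : Y)) - δ * φ h) by field_simp, abs_mul, abs_inv, abs_of_pos hδ0,
      inv_mul_le_iff₀ hδ0]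
    have h6 : ηu * G ≤ ω / 8 * G := mul_le_mul_of_nonneg_right (min_le_left _ _) hpos.le
    have h7 : ω * G ≤ ω * (2 * δ) := mul_le_mul_of_nonneg_left (by linarith) hω.le
    linarith
  have nY : ∀ V : Y, ∃ w : sphere (0 : X) 1, l ≤ ‖(z : X) - w‖ ∧
      (1 - 4 * τn) * ‖V‖ ≤ |J ((f z : Y) - f w) V| := fun V => by
    obtain ⟨w, hw, hn⟩ := hnY (f z) V
    refine ⟨f.symm w, ?_, by rwa [IsometryEquiv.apply_symm_apply]⟩
    rw [← iso_norm_sub f, IsometryEquiv.apply_symm_apply]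
    exact ((min_le_right _ _).trans (min_le_right _ _)).trans hw
  refine close_of_tests (l := l) (ζ := 2 * η₃) hodd z hτn0.le ?_ (by linarith) nY (fun V => ?_) ?_
  · linarith [min_le_right τ η₃, min_le_left (η / 16) (1 / 8)]
  · obtain ⟨w, hw, hn⟩ := hnX z V
    exact ⟨w, ((min_le_right _ _).trans (min_le_left _ _)).trans hw, hn⟩
  intro w hw y
  set φ := J ((z : X) - w)
  set ψ := J ((f z : Y) - f w)
  by_cases hy : ‖(z : X) - y‖ < η₃
  · have hy' : ‖(f y : Y) - f z‖ < η₃ := by rwa [iso_norm_sub, norm_sub_rev]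
    rw [norm_sub_rev] at hy
    rw [abs_le]
    constructor <;> linarith [J_le ((f z : Y) - f w) ((f y : Y) - f z),
      neg_le_J ((f z : Y) - f w) ((f y : Y) - f z), J_le ((z : X) - w) ((y : X) - z),
      neg_le_J ((z : X) - w) ((y : X) - z)]
  push Not at hy
  set L := ‖(z : X) - y‖ with hL
  have hL0 : 0 < L := h30.trans_le hy
  set a := J (z : X) ((z : X) - y) with ha
  have ha2 : a ≤ L := J_le _ _
  have hL2 : L ≤ 2 := (norm_sub_le _ _).trans (by rw [sph_norm, sph_norm]; norm_num)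
  have ha1 : η₃ * κ ≤ a := by
    have h := htr z y (sph_norm z) (sph_norm y) hy
    rw [map_smul, smul_eq_mul, le_inv_mul_iff₀ hL0] at h
    exact le_trans (mul_le_mul_of_nonneg_right hy hκ.le) h
  have ha0 : 0 < a := lt_of_lt_of_le (by positivity) ha1
  obtain ⟨U, hU⟩ := hU (a⁻¹ • ((y : X) - z))
    (by rw [map_smul, smul_eq_mul, show (y : X) - z = -((z : X) - y) by abel, map_neg, ← ha,
      mul_neg, inv_mul_cancel₀ ha0.ne'])
    (by rw [norm_smul_of_nonneg (by positivity), norm_sub_rev, ← hL, ← div_eq_inv_mul, hM]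
        exact div_le_div₀ (by norm_num) hL2 (by positivity) ha1)
  set V := -(a • U) with hV
  have hVw : ∀ w' : sphere (0 : X) 1, l ≤ ‖(z : X) - w'‖ →
      |J ((f z : Y) - f w') V + J ((z : X) - w') ((y : X) - z)| ≤ ω := by
    intro w' hw'
    have h1 := mul_le_mul (le_refl a) (hU w' hw') (abs_nonneg _) ha0.le
    rw [← abs_of_pos ha0, ← abs_mul, abs_of_pos ha0, map_smul, smul_eq_mul, mul_sub,
      mul_inv_cancel_left₀ ha0.ne', abs_sub_comm] at h1
    rw [hV, map_neg, map_smul, smul_eq_mul, neg_add_eq_sub]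
    refine h1.trans ?_
    have := mul_le_mul_of_nonneg_right (ha2.trans hL2) hω.le
    linarith
  clear_value V
  set m := (f z : Y) - f y with hm
  have hmL : ‖m‖ = L := iso_norm_sub f z y
  have hJV : L - ω ≤ J m V := by
    have h1 := (abs_le.1 (hVw y (hlη.trans hy))).1
    rw [show (y : X) - z = -((z : X) - y) by abel, map_neg (J ((z : X) - y)), J_self, ← hL] at h1
    linarith
  have hVn : (1 - 4 * τ) * ‖V‖ ≤ L + ω := by
    obtain ⟨w', hw', hn⟩ := nY V
    have h1 := hVw w' hw'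
    have h2 : |J ((z : X) - w') ((y : X) - z)| ≤ L := by
      rw [hL, norm_sub_rev]; exact abs_le.2 ⟨neg_le_J _ _, J_le _ _⟩
    have h3 : (1 - 4 * τ) * ‖V‖ ≤ (1 - 4 * τn) * ‖V‖ :=
      mul_le_mul_of_nonneg_right (by linarith [min_le_left τ η₃]) (norm_nonneg _)
    have := abs_add_le (J ((f z : Y) - f w') V + J ((z : X) - w') ((y : X) - z))
      (-J ((z : X) - w') ((y : X) - z))
    rw [add_neg_cancel_right, abs_neg] at this
    linarith
  have hd := hpin m V (hy.trans hmL.ge) (hmL.trans_le hL2) (by rw [hmL]; exact hJV)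
    (by rw [hmL]; exact hVn)
  have h1 := abs_le.1 (hVw w hw)
  have h2 := (J_le ((f z : Y) - f w) (V - m)).trans hd
  have h3 := neg_le_J ((f z : Y) - f w) (V - m)
  have e4 : J ((f z : Y) - f w) ((f y : Y) - f z) = -J ((f z : Y) - f w) m := by
    rw [← map_neg, hm, neg_sub]
  rw [map_sub] at h2 h3
  rw [abs_le]
  simp only [φ, ψ, e4]
  constructor <;> linarith

theorem mazurUlam_infinite (X : Type u) [NormedAddCommGroup X] [NormedSpace ℝ X] [CompleteSpace X]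
    [UniformConvexSpace X] (p C : ℝ) (hp : 1 < p) (hS : SmoothP X p C)
    (hinf : ¬ FiniteDimensional ℝ X) (Y : Type v) [NormedAddCommGroup Y] [NormedSpace ℝ Y]
    [CompleteSpace Y] (f : sphere (0 : X) 1 ≃ᵢ sphere (0 : Y) 1) :
    ∃ T : X ≃ₗᵢ[ℝ] Y, ∀ x : sphere (0 : X) 1, T x = (f x : Y) := by
  obtain ⟨hYc, hYs, NX, NY, hodd⟩ := geomPin X Y p C hp hS f
  obtain ⟨GX, GY, hpos, hscale⟩ := scalePin X Y p C hp hS hYs hinf ⟨f⟩
  have hodd' : ∀ a b : sphere (0 : Y) 1, (b : Y) = -(a : Y) →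
      (f.symm b : X) = -(f.symm a : X) := by
    intro a b hab
    have h := hodd (f.symm a) ⟨-(f.symm a : X), by simp [sph_norm]⟩ rfl
    rw [IsometryEquiv.apply_symm_apply, ← hab] at h
    rw [← Subtype.ext h, IsometryEquiv.symm_apply_apply]
  refine linear_of_close fun η hη => ?_
  obtain ⟨β₁, hβ₁, h₁⟩ := core NX NY GX GY f hodd hη
  obtain ⟨β₂, hβ₂, h₂⟩ := core NY NX GY GX f.symm hodd' hη
  obtain ⟨e, he, he1, hsel⟩ := hscale (min β₁ β₂) (lt_min hβ₁ hβ₂)
  obtain ⟨r₁, hr₁, k₁⟩ := h₁ e he he1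
  obtain ⟨r₂, hr₂, k₂⟩ := h₂ e he he1
  obtain ⟨r, hr, hrr, hdrop⟩ := hsel (min r₁ r₂) (lt_min hr₁ hr₂)
  have hp0 := hpos r hr
  rcases le_total (gain Y r) (gain X r) with hs | hs
  · rw [max_eq_left hs] at hdrop hp0
    have hb : min β₁ β₂ * e * gain X r ≤ β₁ * e * gain X r := by gcongr; exact min_le_left _ _
    exact k₁ r hr (hrr.trans (min_le_left _ _)) hs hp0
      ((le_max_left _ _).trans (hdrop.trans hb)) ((le_max_right _ _).trans (hdrop.trans hb))
  · rw [max_eq_right hs] at hdrop hp0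
    have hb : min β₁ β₂ * e * gain Y r ≤ β₂ * e * gain Y r := by gcongr; exact min_le_right _ _
    exact Close.symm (k₂ r hr (hrr.trans (min_le_right _ _)) hs hp0
      ((le_max_right _ _).trans (hdrop.trans hb)) ((le_max_left _ _).trans (hdrop.trans hb)))

end Vale.Agent.P084.Smooth
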