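import Vale.Agent.P084.Smooth.Defs

/-!
P084 in infinite dimensions: the facts about geometry and about the asymptotic modulus that the
translation argument consumes.
-/

open Filter Topology Metric

namespace Vale.Agent.P084.Smooth

universe u v

variable (X : Type u) [NormedAddCommGroup X] [NormedSpace ℝ X]

/-- what uniform convexity and uniform smoothness give -/
structure Nice : Prop where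
  wl : ∀ (x : ℕ → X) (M : ℝ), (∀ n, ‖x n‖ ≤ M) → ∃ v, WL x v
  expand : ∀ η : ℝ, 0 < η → ∃ t : ℝ, 0 < t ∧ ∀ x h : X, x ≠ 0 → ‖h‖ ≤ t * ‖x‖ →
    ‖x + h‖ ≤ ‖x‖ + J x h + η * ‖h‖
  jcont : ∀ η : ℝ, 0 < η → ∃ ρ : ℝ, 0 < ρ ∧ ∀ x y : X, ‖x‖ = 1 → ‖y‖ = 1 → ‖x - y‖ ≤ ρ →
    ∀ h : X, |J x h - J y h| ≤ η * ‖h‖
  trans : ∀ l : ℝ, 0 < l → ∃ κ : ℝ, 0 < κ ∧ ∀ z w : X, ‖z‖ = 1 → ‖w‖ = 1 → l ≤ ‖z - w‖ →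
    κ ≤ J z (‖z - w‖⁻¹ • (z - w))
  bend : ∃ c : ℝ, 0 < c ∧ ∀ x k : X, ‖x‖ = 1 → ‖k‖ = 1 → J x k = 0 →
    ∀ τ : ℝ, 1 / 6 ≤ τ → τ ≤ 1 / 2 → 1 + c ≤ ‖x + τ • k‖
  chord : ∀ τ : ℝ, 0 < τ → ∃ l : ℝ, 0 < l ∧ ∀ z k : X, ‖z‖ = 1 → ‖k‖ = 1 → τ ≤ J z k →
    ∃ T : ℝ, l ≤ T ∧ ‖z - T • k‖ = 1
  conv : ∀ η : ℝ, 0 < η → ∃ δ : ℝ, 0 < δ ∧ ∀ a b : X, ‖a‖ ≤ 1 → ‖b‖ ≤ 1 →
    2 - δ ≤ ‖a + b‖ → ‖a - b‖ ≤ η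

/-- elementary facts about the asymptotic radius and modulus -/
structure GainFacts : Prop where
  rad_nonneg : ∀ x : ℕ → X, Bdd x → 0 ≤ rad x
  norm_le_rad : ∀ (x : ℕ → X) (v : X), Bdd x → WL x v → (ulim fun n => ‖x n - v‖) ≤ rad x
  nonneg : ∀ r : ℝ, 0 ≤ r → 0 ≤ gain X r
  le_self : ∀ r : ℝ, 0 ≤ r → gain X r ≤ r
  mono : ∀ r s : ℝ, 0 ≤ r → r ≤ s → gain X r ≤ gain X s
  mul_le : ∀ t r : ℝ, 0 ≤ t → t ≤ 1 → 0 ≤ r → gain X (t * r) ≤ t * gain X r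
  upper : ∀ (x : X) (ν : ℕ → X) (r s : ℝ), Bdd ν → WL ν 0 → rad ν ≤ r → 0 < s → s ≤ ‖x‖ →
    (ulim fun n => ‖x + ν n‖) ≤ ‖x‖ + s * gain X (r / s)
  upper_small : ∀ (x : X) (ν : ℕ → X) (r : ℝ), Bdd ν → WL ν 0 → rad ν ≤ r → ‖x‖ ≤ 1 →
    (ulim fun n => ‖x + ν n‖) ≤ ‖x‖ + gain X r + (1 - ‖x‖) * r
  near : ∀ r : ℝ, 0 < r → 0 < gain X r → ∀ q : ℝ, q < 1 → ∃ (z : X) (ν : ℕ → X),
    ‖z‖ = 1 ∧ Bdd ν ∧ WL ν 0 ∧ rad ν ≤ r ∧ 1 + q * gain X r ≤ ulim fun n => ‖z + ν n‖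

/-- block A -/
def GeomPin : Prop :=
  ∀ (Y : Type v) [NormedAddCommGroup Y] [NormedSpace ℝ Y] [CompleteSpace X] [CompleteSpace Y]
    [UniformConvexSpace X] (p C : ℝ), 1 < p → SmoothP X p C →
    ∀ f : sphere (0 : X) 1 ≃ᵢ sphere (0 : Y) 1,
      UniformConvexSpace Y ∧ SmoothU Y ∧ Nice X ∧ Nice Y ∧
        ∀ a b : sphere (0 : X) 1, (b : X) = -(a : X) → (f b : Y) = -(f a : Y)

/-- block B -/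
def ScalePin : Prop :=
  ∀ (Y : Type v) [NormedAddCommGroup Y] [NormedSpace ℝ Y] [CompleteSpace X] [CompleteSpace Y]
    [UniformConvexSpace X] [UniformConvexSpace Y] (p C : ℝ), 1 < p → SmoothP X p C → SmoothU Y →
    ¬ FiniteDimensional ℝ X → Nonempty (sphere (0 : X) 1 ≃ᵢ sphere (0 : Y) 1) →
      GainFacts X ∧ GainFacts Y ∧ (∀ r : ℝ, 0 < r → 0 < max (gain X r) (gain Y r)) ∧
        ∀ β : ℝ, 0 < β → ∃ e : ℝ, 0 < e ∧ e ≤ 1 / 2 ∧ ∀ r₀ : ℝ, 0 < r₀ → ∃ r : ℝ, 0 < r ∧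
          r ≤ r₀ ∧ max (gain X (e * r)) (gain Y (e * r)) ≤ β * e * max (gain X r) (gain Y r)

end Vale.Agent.P084.Smooth
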