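import Vale.Agent.P084.Smooth.Pins

/-!
P084 in infinite dimensions: translations of a sequence along a chord.
-/

open Filter Topology Metric

namespace Vale.Agent.P084.Smooth

universe u v

variable {X : Type u} [NormedAddCommGroup X] [NormedSpace ℝ X]

theorem ulim_congr {a b : ℕ → ℝ} (h : a =ᶠ[(U0 : Filter ℕ)] b) : ulim a = ulim b := by
  simp only [ulim, limUnder]; rw [map_congr h]

omit [NormedSpace ℝ X] in
theorem bdd_sphere {x : ℕ → X} (h : ∀ᶠ n in (U0 : Filter ℕ), ‖x n‖ = 1) : Bdd x :=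
  ⟨1, h.mono fun _ hn => hn.le⟩

omit [NormedSpace ℝ X] in
theorem Bdd.dist_tendsto {x : ℕ → X} (h : Bdd x) (v : X) :
    Tendsto (fun m => ‖v - x m‖) U0 (𝓝 (ulim fun m => ‖v - x m‖)) := by
  obtain ⟨M, hM⟩ := h
  exact ulim_spec (lo := 0) (hi := ‖v‖ + M) (hM.mono fun n hn =>
    ⟨norm_nonneg _, (norm_sub_le _ _).trans (by linarith)⟩)

omit [NormedSpace ℝ X] in
theorem Bdd.radius_tendsto {x : ℕ → X} (h : Bdd x) :
    Tendsto (fun n => ulim fun m => ‖x n - x m‖) U0 (𝓝 (rad x)) := by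
  obtain ⟨M, hM⟩ := id h
  refine ulim_spec (lo := 0) (hi := M + M) (hM.mono fun n hn => ⟨?_, ?_⟩)
  · exact ge_of_tendsto (h.dist_tendsto _) (Eventually.of_forall fun _ => norm_nonneg _)
  · exact le_of_tendsto (h.dist_tendsto _)
      (hM.mono fun m hm => (norm_sub_le _ _).trans (by linarith))

omit [NormedSpace ℝ X] in
theorem rad_le_of {x y : ℕ → X} (hx : Bdd x) (hy : Bdd y) {e : ℕ → ℝ}
    (he : Tendsto e U0 (𝓝 0)) {c r : ℝ} (hc : 0 ≤ c) (hr : rad x ≤ r)
    (h : ∀ᶠ n in (U0 : Filter ℕ), ∀ᶠ m in (U0 : Filter ℕ),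
      ‖y n - y m‖ ≤ e n + e m + c * ‖x n - x m‖) : rad y ≤ c * r := by
  have hin : ∀ᶠ n in (U0 : Filter ℕ),
      (ulim fun m => ‖y n - y m‖) ≤ e n + c * ulim fun m => ‖x n - x m‖ := by
    filter_upwards [h] with n hn
    refine le_of_tendsto_of_tendsto (hy.dist_tendsto _) ?_ hn
    simpa using (tendsto_const_nhds (x := e n)).add he |>.add ((hx.dist_tendsto (x n)).const_mul c)
  have h2 := le_of_tendsto_of_tendsto hy.radius_tendsto (he.add (hx.radius_tendsto.const_mul c)) hin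
  rw [zero_add] at h2
  exact h2.trans (mul_le_mul_of_nonneg_left hr hc)

omit [NormedSpace ℝ X] in
theorem rad_congr {x y : ℕ → X} (h : x =ᶠ[(U0 : Filter ℕ)] y) : rad x = rad y := by
  refine ulim_congr ?_
  filter_upwards [h] with n hn
  exact ulim_congr (h.mono fun m hm => by simp only [hn, hm])

theorem ulim_norm_congr {x y : ℕ → X} (hy : Bdd y)
    (h : Tendsto (fun n => ‖x n - y n‖) U0 (𝓝 0)) :
    (ulim fun n => ‖x n‖) = ulim fun n => ‖y n‖ := by
  refine ulim_eq ?_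
  have h0 : Tendsto (fun n => ‖x n‖ - ‖y n‖) U0 (𝓝 0) :=
    squeeze_zero_norm (fun n => abs_norm_sub_norm_le _ _) h
  simpa using h0.add hy.tendsto_norm

theorem WL.sub_self {x : ℕ → X} {v : X} (h : WL x v) : WL (fun n => x n - v) 0 := by
  simpa using h.sub_const v

/-- one translation along a chord, shrinking the weakly null part by the factor `c` -/
theorem step (N : Nice X) (G₀ : GainFacts X) {l κ : ℝ} (hl : 0 < l) (hκ : 0 < κ) (hκ1 : κ ≤ 1)
    (htr : ∀ z w : X, ‖z‖ = 1 → ‖w‖ = 1 → l ≤ ‖z - w‖ → κ ≤ J z (‖z - w‖⁻¹ • (z - w))) :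
    ∃ σ : ℝ, 0 < σ ∧ ∀ (a b : X), ‖a‖ = 1 → ‖b‖ = 1 → l ≤ ‖a - b‖ →
      ∀ (x : ℕ → X) (v : X) (r G c : ℝ), (∀ᶠ n in (U0 : Filter ℕ), ‖x n‖ = 1) → WL x v →
        rad x ≤ r → 0 ≤ r → r ≤ σ → gain X r ≤ G → 0 < G → G ≤ σ → ‖v - a‖ ≤ σ → 0 ≤ c → c ≤ 1 →
        ∃ (y : ℕ → X) (s : ℝ), (∀ᶠ n in (U0 : Filter ℕ), ‖y n‖ = 1) ∧
          WL y (v - s • (‖a - b‖⁻¹ • (a - b))) ∧ rad y ≤ c * r ∧
          ‖v - s • (‖a - b‖⁻¹ • (a - b)) - b‖ ≤ ‖v - a‖ + 4 / κ * (‖v - a‖ + G) ∧
          (ulim fun n => ‖x n - y n‖) ≤ s + l / 2 * gain X ((1 - c) * r / (l / 2)) := by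
  obtain ⟨t, ht, hexp⟩ := N.expand (κ / 8) (by positivity)
  refine ⟨min (1 / 8) (min (l / 2 * κ / 8) (t * κ / 12)), by positivity, ?_⟩
  intro a b ha hb hab x v r G c hx hv hrad hr hrσ hgG hG hGσ hE hc hc1
  simp only [le_min_iff] at hrσ hGσ hE
  set E := ‖v - a‖ with hEdef
  have hE0 : 0 ≤ E := norm_nonneg _
  set L := ‖a - b‖ with hL
  have hLpos : 0 < L := hl.trans_le hab
  set d := L⁻¹ • (a - b) with hd
  have hdn : ‖d‖ = 1 := by
    rw [hd, norm_smul_of_nonneg (inv_nonneg.2 hLpos.le), ← hL, inv_mul_cancel₀ hLpos.ne']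
  have hLd : L • d = a - b := by rw [hd, smul_smul, mul_inv_cancel₀ hLpos.ne', one_smul]
  set Δ := 4 / κ * (E + G) with hΔ
  have hΔ0 : 0 < Δ := by positivity
  have hΔκ : Δ * κ = 4 * (E + G) := by rw [hΔ]; field_simp
  have hΔl : Δ ≤ l / 2 := by nlinarith
  have hΔt : Δ + E ≤ t := by nlinarith
  have hb0 : b ≠ 0 := by intro h; rw [h, norm_zero] at hb; exact zero_ne_one hb
  have hbd : κ ≤ J b (-d) := by
    have h := htr b a hb ha (by rwa [norm_sub_rev])
    rwa [norm_sub_rev b a, ← hL, show b - a = -(a - b) by abel, smul_neg, ← hd] at h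
  have hbd' : J b d ≤ -κ := by rw [map_neg] at hbd; linarith
  set ν := fun n => x n - v with hν
  have hνb : Bdd ν := (bdd_sphere hx).sub_const v
  have hν0 : WL ν 0 := hv.sub_self
  have hνr : rad ν ≤ r := by simpa [rad, hν, sub_sub_sub_cancel_right] using hrad
  have hcν : rad (fun n => c • ν n) ≤ r := by
    refine (rad_le_of hνb (hνb.smul c) (e := fun _ => 0) tendsto_const_nhds hc hνr
      (Eventually.of_forall fun n => Eventually.of_forall fun m => ?_)).trans
      (mul_le_of_le_one_left hr hc1)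
    rw [← smul_sub, norm_smul_of_nonneg hc]; linarith
  set F : ℕ → ℝ → ℝ := fun n s => ‖v - s • d + c • ν n‖ with hF
  have hp : J b (v - a) ≤ E ∧ -E ≤ J b (v - a) := ⟨J_le _ _, neg_le_J _ _⟩
  have ehi : v - (L + Δ) • d = b + (Δ • (-d) + (v - a)) := by
    rw [add_smul, hLd, smul_neg]; abel
  have elo : v - (L - Δ) • d = b + (Δ • d + (v - a)) := by
    rw [sub_smul, hLd]; abel
  have hhi : ∀ᶠ n in (U0 : Filter ℕ), 1 ≤ F n (L + Δ) := by
    have h0 : Tendsto (fun n => J b (c • ν n)) U0 (𝓝 0) := by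
      simpa using (hν0 (J b)).const_mul c
    filter_upwards [h0.eventually_const_le (show -(3 * E + 4 * G) < 0 by linarith)] with n hn
    have h := J_le b (v - (L + Δ) • d + c • ν n)
    rw [map_add, ehi, map_add, map_add, map_smul, smul_eq_mul, J_self, hb, ← ehi] at h
    have h3 : Δ * κ ≤ Δ * J b (-d) := mul_le_mul_of_nonneg_left hbd hΔ0.le
    simp only [hF]
    linarith
  have hlo : ∀ᶠ n in (U0 : Filter ℕ), F n (L - Δ) ≤ 1 := by
    have hn : ‖Δ • d + (v - a)‖ ≤ Δ + E := (norm_add_le _ _).trans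
      (by rw [norm_smul_of_nonneg hΔ0.le, hdn, mul_one])
    have h := hexp b (Δ • d + (v - a)) hb0 (by rw [hb, mul_one]; exact hn.trans hΔt)
    rw [← elo, hb, map_add, map_smul, smul_eq_mul] at h
    set s₁ := ‖v - (L - Δ) • d‖
    have h3 : Δ * J b d ≤ Δ * (-κ) := mul_le_mul_of_nonneg_left hbd' hΔ0.le
    have h4 : κ / 8 * ‖Δ • d + (v - a)‖ ≤ Δ * κ / 8 + E / 8 := by
      refine (mul_le_mul_of_nonneg_left hn (by positivity)).trans ?_
      nlinarith
    have hs : s₁ ≤ 1 - 7 / 2 * G := by linarith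
    have h5 := G₀.upper_small (v - (L - Δ) • d) (fun n => c • ν n) r (hνb.smul c)
      (by simpa using hν0.smul c) hcν (by linarith)
    have h6 : (ulim fun n => F n (L - Δ)) < 1 := by
      have : (1 - s₁) * r ≤ (1 - s₁) * (1 / 8) :=
        mul_le_mul_of_nonneg_left hrσ.1 (by linarith)
      simp only [hF]
      linarith
    have hb2 : Bdd fun n => v - (L - Δ) • d + c • ν n := (bdd_const _).add (hνb.smul c)
    exact (hb2.tendsto_norm.eventually_le_const h6).mono fun n hn => hn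
  have hroot : ∀ n, ∃ s ∈ Set.Icc (L - Δ) (L + Δ),
      F n (L - Δ) ≤ 1 → 1 ≤ F n (L + Δ) → F n s = 1 := by
    intro n
    by_cases h : F n (L - Δ) ≤ 1 ∧ 1 ≤ F n (L + Δ)
    · obtain ⟨s, hs, hs1⟩ := intermediate_value_Icc (by linarith : L - Δ ≤ L + Δ)
        (show ContinuousOn (F n) (Set.Icc (L - Δ) (L + Δ)) by simp only [hF]; fun_prop) h
      exact ⟨s, hs, fun _ _ => hs1⟩
    · exact ⟨L, ⟨by linarith, by linarith⟩, fun h1 h2 => (h ⟨h1, h2⟩).elim⟩
  choose sn hsn hroot using hroot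
  set s := ulim sn with hs
  have hst : Tendsto sn U0 (𝓝 s) := ulim_spec (Eventually.of_forall hsn)
  have hs1 : L - Δ ≤ s := ge_of_tendsto hst (Eventually.of_forall fun n => (hsn n).1)
  have hs2 : s ≤ L + Δ := le_of_tendsto hst (Eventually.of_forall fun n => (hsn n).2)
  have hsl : l / 2 ≤ s := by linarith
  have he : Tendsto (fun n => |sn n - s|) U0 (𝓝 0) := by
    simpa using (hst.sub_const s).abs
  refine ⟨fun n => v - sn n • d + c • ν n, s, ?_, ?_, ?_, ?_, ?_⟩
  · filter_upwards [hlo, hhi] with n h1 h2 using hroot n h1 h2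
  · have h1 : WL (fun n => v - s • d + c • ν n) (v - s • d) := fun φ => by
      simpa using ((hν0 φ).const_mul c).const_add (φ (v - s • d))
    refine h1.congr_tendsto (he.congr fun n => ?_)
    rw [show v - sn n • d + c • ν n - (v - s • d + c • ν n) = (s - sn n) • d by
      rw [sub_smul]; abel, norm_smul, hdn, mul_one, Real.norm_eq_abs, abs_sub_comm]
  · refine rad_le_of (bdd_sphere hx) (bdd_sphere ?_) he hc hrad
      (Eventually.of_forall fun n => Eventually.of_forall fun m => ?_)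
    · filter_upwards [hlo, hhi] with n h1 h2 using hroot n h1 h2
    · rw [show v - sn n • d + c • ν n - (v - sn m • d + c • ν m)
        = ((s - sn n) - (s - sn m)) • d + c • (x n - x m) by simp only [hν]; module]
      refine (norm_add_le _ _).trans ?_
      rw [norm_smul, hdn, mul_one, norm_smul_of_nonneg hc, Real.norm_eq_abs]
      have := abs_sub (s - sn n) (s - sn m)
      rw [abs_sub_comm s, abs_sub_comm s] at this
      linarith
  · rw [show v - s • d - b = (v - a) + (L - s) • d by rw [sub_smul, hLd]; abel]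
    refine (norm_add_le _ _).trans ?_
    rw [norm_smul, hdn, mul_one, Real.norm_eq_abs]
    have : |L - s| ≤ Δ := abs_le.2 ⟨by linarith, by linarith⟩
    linarith
  · have hb2 : Bdd fun n => s • d + (1 - c) • ν n := (bdd_const _).add (hνb.smul _)
    rw [ulim_norm_congr (x := fun n => x n - (v - sn n • d + c • ν n)) hb2 (he.congr fun n => ?_)]
    · have hsd : ‖s • d‖ = s := by rw [norm_smul_of_nonneg (by linarith), hdn, mul_one]
      have h2 := G₀.upper (s • d) (fun n => (1 - c) • ν n) ((1 - c) * r) (l / 2) (hνb.smul _)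
        (by simpa using hν0.smul (1 - c)) ?_ (by positivity) (by rw [hsd]; exact hsl)
      · rwa [hsd] at h2
      · refine rad_le_of hνb (hνb.smul _) (e := fun _ => 0) tendsto_const_nhds (by linarith) hνr
          (Eventually.of_forall fun n => Eventually.of_forall fun m => ?_)
        rw [← smul_sub, norm_smul_of_nonneg (by linarith)]; linarith
    · rw [show x n - (v - sn n • d + c • ν n) - (s • d + (1 - c) • ν n) = (sn n - s) • d by
        simp only [hν]; module, norm_smul, hdn, mul_one, Real.norm_eq_abs]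

end Vale.Agent.P084.Smooth
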